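import Vale.Agent.P235.H56.Defs

/-! Transitivity of minors (copy of H134/Grid/Excl.lean, light imports), and the contraction of an
edge as a minor (helper56). -/

set_option linter.all false

namespace Vale.Agent.P235.H56

open SimpleGraph Vale.Agent.P235.H134

theorem reachable_union {V X : Type} {G : SimpleGraph V} {K : SimpleGraph X} {ν : X → Set V}
    (h1 : ∀ a, (G.induce (ν a)).Connected)
    (h3 : ∀ a b, K.Adj a b → ∃ x ∈ ν a, ∃ y ∈ ν b, G.Adj x y) {S : Set X} {T : Set V}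
    (hT : ∀ x ∈ S, ν x ⊆ T) {x y : S} (w : (K.induce S).Walk x y) :
    ∀ (u v : V) (hu : u ∈ ν x.1) (hv : v ∈ ν y.1),
      (G.induce T).Reachable ⟨u, hT x.1 x.2 hu⟩ ⟨v, hT y.1 y.2 hv⟩ := by
  have hin : ∀ (x : S) (u v : V) (hu : u ∈ ν x.1) (hv : v ∈ ν x.1),
      (G.induce T).Reachable ⟨u, hT x.1 x.2 hu⟩ ⟨v, hT x.1 x.2 hv⟩ := by
    intro x u v hu hv
    exact ((h1 x.1).preconnected ⟨u, hu⟩ ⟨v, hv⟩).map (induceHomOfLE G (hT x.1 x.2)).toHom
  induction w with
  | nil => exact hin _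
  | @cons a b c hab _ ih =>
    intro u v hu hv
    obtain ⟨p, hp, q, hq, hpq⟩ := h3 a.1 b.1 hab
    refine (hin a u p hu hp).trans (Reachable.trans ?_ (ih q v hq hv))
    exact Adj.reachable (show (G.induce T).Adj ⟨p, hT a.1 a.2 hp⟩ ⟨q, hT b.1 b.2 hq⟩ from hpq)

theorem minor_trans {W X V : Type} {H : SimpleGraph W} {K : SimpleGraph X} {G : SimpleGraph V}
    (h : IsMinor H K) (h' : IsMinor K G) : IsMinor H G := by
  obtain ⟨μ, a1, a2, a3⟩ := h
  obtain ⟨ν, b1, b2, b3⟩ := h'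
  refine ⟨fun a => ⋃ x ∈ μ a, ν x, fun a => ?_, fun a b hab => ?_, fun a b hab => ?_⟩
  · have hT : ∀ x ∈ μ a, ν x ⊆ ⋃ x ∈ μ a, ν x := fun x hx => Set.subset_biUnion_of_mem hx
    obtain ⟨⟨x0, hx0⟩⟩ := (a1 a).nonempty
    obtain ⟨⟨v0, hv0⟩⟩ := (b1 x0).nonempty
    have : Nonempty (⋃ x ∈ μ a, ν x : Set V) := ⟨⟨v0, hT x0 hx0 hv0⟩⟩
    refine ⟨fun u v => ?_⟩
    obtain ⟨u, hu⟩ := u
    obtain ⟨v, hv⟩ := v
    obtain ⟨x, hx, hux⟩ := Set.mem_iUnion₂.1 hu
    obtain ⟨y, hy, hvy⟩ := Set.mem_iUnion₂.1 hv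
    obtain ⟨w⟩ := (a1 a).preconnected ⟨x, hx⟩ ⟨y, hy⟩
    exact reachable_union b1 b3 hT w u v hux hvy
  · rw [Set.disjoint_left]
    intro z hz hz'
    obtain ⟨x, hx, hzx⟩ := Set.mem_iUnion₂.1 hz
    obtain ⟨y, hy, hzy⟩ := Set.mem_iUnion₂.1 hz'
    by_cases hxy : x = y
    · subst hxy
      exact Set.disjoint_left.1 (a2 a b hab) hx hy
    · exact Set.disjoint_left.1 (b2 x y hxy) hzx hzy
  · obtain ⟨x, hx, y, hy, hxy⟩ := a3 a b hab
    obtain ⟨p, hp, q, hq, hpq⟩ := b3 x y hxy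
    exact ⟨p, Set.mem_iUnion₂.2 ⟨x, hx, hp⟩, q, Set.mem_iUnion₂.2 ⟨y, hy, hq⟩, hpq⟩

theorem conn_single {V : Type} (G : SimpleGraph V) (a : V) : (G.induce {a}).Connected := by
  haveI : Nonempty ({a} : Set V) := ⟨⟨a, rfl⟩⟩
  refine ⟨fun x y => ?_⟩
  obtain rfl : x = y := Subtype.ext (x.2.trans y.2.symm)
  exact Reachable.refl _

theorem conn_pair {V : Type} (G : SimpleGraph V) {a b : V} (h : G.Adj a b) :
    (G.induce {a, b}).Connected := by
  haveI : Nonempty ({a, b} : Set V) := ⟨⟨a, Or.inl rfl⟩⟩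
  have hab : (G.induce {a, b}).Reachable ⟨a, Or.inl rfl⟩ ⟨b, Or.inr rfl⟩ :=
    Adj.reachable (show G.Adj a b from h)
  have key : ∀ x : ({a, b} : Set V), (G.induce {a, b}).Reachable ⟨a, Or.inl rfl⟩ x := by
    rintro ⟨x, rfl | rfl⟩
    · exact Reachable.refl _
    · exact hab
  exact ⟨fun x y => (key x).symm.trans (key y)⟩

/-- the contraction of an edge is a minor -/
theorem contract_minor {V : Type} {G : SimpleGraph V} {a b : V} (h : G.Adj a b) :
    IsMinor (contractEdge G a b) G := by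
  classical
  refine ⟨fun x => if x.1 = a then {a, b} else {x.1}, fun x => ?_, fun x y hxy => ?_,
    fun x y hxy => ?_⟩
  · by_cases hx : x.1 = a
    · have e : (if x.1 = a then ({a, b} : Set V) else {x.1}) = {a, b} := if_pos hx
      show (G.induce (if x.1 = a then ({a, b} : Set V) else {x.1})).Connected
      rw [e]
      exact conn_pair G h
    · have e : (if x.1 = a then ({a, b} : Set V) else {x.1}) = {x.1} := if_neg hx
      show (G.induce (if x.1 = a then ({a, b} : Set V) else {x.1})).Connected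
      rw [e]
      exact conn_single G _
  · rw [Set.disjoint_left]
    intro z hz hz'
    by_cases hx : x.1 = a <;> by_cases hy : y.1 = a
    · exact hxy (Subtype.ext (hx.trans hy.symm))
    · simp only [hx, if_true, hy, if_false] at hz hz'
      rcases hz with rfl | hz
      · exact hy hz'.symm
      · exact y.2 (hz'.symm.trans hz)
    · simp only [hx, if_false, hy, if_true] at hz hz'
      rcases hz' with rfl | hz'
      · exact hx hz.symm
      · exact x.2 (hz.symm.trans hz')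
    · simp only [hx, hy, if_false] at hz hz'
      exact hxy (Subtype.ext (hz.symm.trans hz'))
  · obtain ⟨hne, h1⟩ := hxy
    have hmem : ∀ x : {x : V // x ≠ b}, x.1 ∈ (if x.1 = a then ({a, b} : Set V) else {x.1}) := by
      intro x
      by_cases hx : x.1 = a
      · simp only [hx, if_true]; exact Or.inl rfl
      · simp only [hx, if_false]; exact rfl
    have hmb : ∀ x : {x : V // x ≠ b}, x.1 = a →
        b ∈ (if x.1 = a then ({a, b} : Set V) else {x.1}) := by
      intro x hx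
      simp only [hx, if_true]; exact Or.inr rfl
    rcases h1 with h1 | ⟨h1, h2⟩ | ⟨h1, h2⟩
    · exact ⟨x.1, hmem x, y.1, hmem y, h1⟩
    · exact ⟨b, hmb x h1, y.1, hmem y, h2⟩
    · exact ⟨x.1, hmem x, b, hmb y h1, h2.symm⟩

end Vale.Agent.P235.H56
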