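import Vale.Agent.P235.H56.Fin
import Vale.Agent.P235.H786.CG
import Vale.Agent.P235.H427.PK
import Vale.Agent.P235.R2.H582.Cap2

/-! `CrossGridStmt` (helper56). -/

set_option linter.all false

namespace Vale.Agent.P235.H56

open SimpleGraph Vale.Agent.P235.H134 Vale.Agent.P235.H141
open Vale.Agent.P235.H341W (capG)

theorem conn_image {X V : Type} {G1 : SimpleGraph X} {G : SimpleGraph V} (i : X → V)
    (hi : ∀ a b, G1.Adj a b → G.Adj (i a) (i b)) {S : Set X} (h : (G1.induce S).Connected) :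
    (G.induce (i '' S)).Connected := by
  refine connected_of_map (fun x : S => (⟨i x.1, x.1, x.2, rfl⟩ : (i '' S : Set V))) ?_ ?_ h
  · rintro ⟨_, x, hx, rfl⟩
    exact ⟨⟨x, hx⟩, rfl⟩
  · intro x y hxy
    exact Or.inr (hi _ _ hxy)

/-- two disjoint minors -/
theorem sum_minor {A B V X Y : Type} {H : SimpleGraph A} {K : SimpleGraph B} {G : SimpleGraph V}
    {G1 : SimpleGraph X} {G2 : SimpleGraph Y} (i : X → V) (j : Y → V)
    (hi : ∀ a b, G1.Adj a b → G.Adj (i a) (i b)) (hj : ∀ a b, G2.Adj a b → G.Adj (j a) (j b))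
    (hi' : Function.Injective i) (hj' : Function.Injective j) (hd : ∀ x y, i x ≠ j y)
    (h1 : IsMinor H G1) (h2 : IsMinor K G2) : IsMinor (H ⊕g K) G := by
  obtain ⟨μ, a1, a2, a3⟩ := h1
  obtain ⟨ν, b1, b2, b3⟩ := h2
  have hdij : ∀ a b, Disjoint (i '' μ a) (j '' ν b) := fun a b => by
    rw [Set.disjoint_left]
    rintro _ ⟨x, -, rfl⟩ ⟨y, -, h⟩
    exact hd x y h.symm
  refine ⟨Sum.elim (fun a => i '' μ a) (fun b => j '' ν b), ?_, ?_, ?_⟩
  · rintro (a | b)
    · exact conn_image i hi (a1 a)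
    · exact conn_image j hj (b1 b)
  · rintro (a | a) (b | b) hab
    · exact (Set.disjoint_image_iff hi').2 (a2 a b fun e => hab (e ▸ rfl))
    · exact hdij a b
    · exact (hdij b a).symm
    · exact (Set.disjoint_image_iff hj').2 (b2 a b fun e => hab (e ▸ rfl))
  · rintro (a | a) (b | b) hab
    · obtain ⟨x, hx, y, hy, h⟩ := a3 a b (by simpa using hab)
      exact ⟨i x, ⟨x, hx, rfl⟩, i y, ⟨y, hy, rfl⟩, hi _ _ h⟩
    · exact absurd hab (by simp)
    · exact absurd hab (by simp)
    · obtain ⟨x, hx, y, hy, h⟩ := b3 a b (by simpa using hab)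
      exact ⟨j x, ⟨x, hx, rfl⟩, j y, ⟨y, hy, rfl⟩, hj _ _ h⟩

theorem crossGrid_of (hArc : ArcStmt) (hCross : CrossStmt) (hEmb : EmbStmt) (hDecap : DecapStmt)
    (hCG : CapGridStmt) (hPK : PKStmt) : CrossGridStmt := by
  intro V _ G A B r hr h2 h3 hτ hA hB hgrid
  have hc := h2.connected h3
  have hA' : A.Nonempty := by
    rw [← Set.ncard_pos (Set.toFinite _)]
    omega
  have hne : (A ∪ B).Nonempty := hA'.mono Set.subset_union_left
  have hd : Nonempty G.Dart := by
    obtain ⟨x, y, hxy⟩ := (Finite.one_lt_card_iff_nontrivial.1 (by omega : 1 < Nat.card V)).exists_pair_ne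
    obtain ⟨w⟩ := hc.preconnected x y
    cases w with
    | nil => exact absurd rfl hxy
    | cons h _ => exact ⟨⟨(_, _), h⟩⟩
  obtain ⟨σ, d, hσ, hT⟩ := hDecap V G (A ∪ B) hc hne hd hτ
  obtain ⟨δ, L, hF, hr'⟩ := exists_fcyc h2 hc hσ d
  rcases hArc V (fun i => (δ i).fst) L A B hF.pos (fun i => by rw [hF.per]) hF.inj
    (fun a ha => hr' a (hT (Or.inl ha))) (fun b hb => hr' b (hT (Or.inr hb))) hA hB with
    ⟨i, j, k, l, h1, h4, h5, h6, h7, h8, h9, h10⟩ | h | ⟨s, n, hn0, hnL, hs, hsn, hAr, hBr⟩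
  · left
    set C : Set V := {x | ∃ i, (δ i).fst = x} with hC
    have hCT : C ⊆ onFace σ (δ 0) := by
      rintro _ ⟨i, rfl⟩
      have key : ∀ i, (faceNext σ).SameCycle (δ 0) (δ i) := fun i => by
        induction i with
        | zero => exact Equiv.Perm.SameCycle.refl _ _
        | succ i ih =>
          rw [← hF.next i]
          exact Equiv.Perm.sameCycle_apply_right.2 ih
      exact ⟨δ i, key i, rfl⟩
    have hCne : C.Nonempty := ⟨_, 0, rfl⟩
    obtain ⟨σC, hσC, -⟩ := Vale.Agent.P235.R2.H582.rowCap2 V G σ (δ 0) C hc hσ hCne hCT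
    have hnk : ¬ IsMinor K33 (capG G C) := hPK _ (capG G C) (H141.capG_conn hc hCne) ⟨σC, hσC⟩
    have hg := hCG V G C r hr hnk hgrid
    have hm := hCross C (G.induce C) {x | x.1 ∈ A} {x | x.1 ∈ B} (fun i => ⟨(δ i).fst, i, rfl⟩) L
      (fun i => Subtype.ext (by show (δ (i + L)).fst = (δ i).fst; rw [hF.per]))
      (fun i j h => hF.inj i j (congrArg Subtype.val h)) (fun i => hF.adj hσ i)
      i j k l h1 h4 h5 h6 h7 h8 h9 h10
    have hB' : ∀ b : C, (some b ∈ insert none (some '' {x : C | x.1 ∈ B})) →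
        some b.1 ∈ insert none (some '' B) := by
      rintro b (h | ⟨c, hc', h⟩)
      · simp at h
      · obtain rfl : c = b := Option.some_injective _ h
        exact Or.inr ⟨c.1, hc', rfl⟩
    refine sum_minor (Option.map (Option.map Subtype.val)) (fun x => some (some x.1)) ?_ ?_
      (Option.map_injective (Option.map_injective Subtype.val_injective)) ?_ ?_ hm hg
    · rintro (_ | _ | a) (_ | _ | b) hab
      · exact hab
      · exact Or.inl rfl
      · exact hB' b hab
      · exact Or.inl rfl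
      · exact hab
      · exact hab
      · exact hB' a hab
      · exact hab
      · exact hab
    · intro a b hab
      exact hab
    · intro x y h
      exact Subtype.ext (Option.some_injective _ (Option.some_injective _ h))
    · rintro (_ | _ | a) y h
      · simp at h
      · simp at h
      · have : a.1 = y.1 := by simpa using h
        exact y.2 (this ▸ a.2)
  · exact Or.inr (Or.inr h)
  · right; left
    refine hEmb V G σ (fun i => δ (i + s)) L n A B hσ (hF.shift s) hn0 hnL ?_ ?_ ?_ ?_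
    · rwa [Nat.zero_add]
    · rwa [Nat.add_comm]
    · intro a ha
      obtain ⟨i, hi, h⟩ := hAr a ha
      exact ⟨i, hi, by rwa [Nat.add_comm]⟩
    · intro b hb
      obtain ⟨i, hi, hi', h⟩ := hBr b hb
      exact ⟨i, hi, hi', by rwa [Nat.add_comm]⟩

/-- **(Core')** -/
theorem crossGridStmt : CrossGridStmt :=
  crossGrid_of H332.arcStmt H248.crossStmt H477.embStmt H141.decapStmt H786.cg H427.pk

end Vale.Agent.P235.H56
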