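import Vale.Agent.P235.H56.Bound
import Vale.Agent.P235.H141.Struct2
import Vale.Agent.P235.H578.SumMono
import Vale.Agent.P235.H447.Hub
import Vale.Agent.P235.H134.Grid.Excl

/-! `c₁` of the graphs without a minor `K_{3,3} ⊔ P`, `P` planar (helper56, helper141 and others). -/

set_option linter.all false

namespace Vale.Agent.P235.H56

open SimpleGraph Vale.Agent.P235.H134 Vale.Agent.P235.H141

/-- 3-connected graphs without a minor `K_{3,3} ⊔ grid r` are plane or of bounded treewidth -/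
theorem struct_tw (r : ℕ) (hr : 1 ≤ r) : ∃ k : ℕ, ∀ (W : Type) [Finite W] (H : SimpleGraph W),
    H.Connected → Conn3 H → ¬ IsMinor (K33 ⊕g grid r) H → ST.H945.PlaneTw k 0 0 W H := by
  obtain ⟨R, hR⟩ := structStmt r hr
  obtain ⟨w, hw⟩ := excludedGrid R
  refine ⟨w, fun W _ H hH h3 hK => ?_⟩
  by_cases h4 : 4 ≤ Nat.card W
  · by_cases hg : TreewidthLE H w
    · exact Or.inr (Or.inl hg)
    · rcases hR W H h3 h4 hH (hw W H hH hg) with h | h
      · exact Or.inl ⟨hH, h⟩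
      · exact absurd h hK
  · exact Or.inr (Or.inr (Or.inl (tw_small H (by omega))))

theorem grid_free (r : ℕ) : ∃ K : ℝ, 0 ≤ K ∧ ∀ (V : Type) [Finite V] (G : SimpleGraph V),
    G.Connected → ¬ IsMinor (K33 ⊕g grid r) G → EdgeIso G K ∧ DistortionLE G K := by
  obtain ⟨C, -, -, -, -, -, h5⟩ := main
  obtain ⟨k, hk⟩ := struct_tw (r + 1) (by omega)
  obtain ⟨K, hK⟩ := h5 k 0 0
  refine ⟨max K 0, le_max_right _ _, fun V _ G hG hm => ?_⟩
  have h := hK V G hG fun W _ H hH h3 hHm => hk W H hH h3 fun h => hm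
    (minor_trans (H578.sumMonoStmt _ _ _ K33 _ _ (H786.gridMonoStmt r (r + 1) (by omega)))
      (minor_trans h hHm))
  exact ⟨ST.H626.EdgeIso.mono' h.1 (le_max_left _ _), h.2.mono (le_max_left _ _)⟩

theorem planar_free (P : Type) [Finite P] (H : SimpleGraph P) (hP : Planar H) :
    ∃ K : ℝ, 0 ≤ K ∧ ∀ (V : Type) [Finite V] (G : SimpleGraph V),
    G.Connected → ¬ IsMinor (K33 ⊕g H) G → EdgeIso G K ∧ DistortionLE G K := by
  obtain ⟨r, hr, hr'⟩ := H205.planar P H hP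
  obtain ⟨K, hK0, hK⟩ := grid_free r
  exact ⟨K, hK0, fun V _ G hG hm => hK V G hG fun h =>
    hm (minor_trans (H578.sumMonoStmt _ _ _ K33 _ _ hr') h)⟩

theorem jj_free (r : ℕ) (hr : 1 ≤ r) : ∃ K : ℝ, 0 ≤ K ∧ ∀ (V : Type) [Finite V]
    (G : SimpleGraph V), G.Connected → ¬ IsMinor (H578.jj r) G →
      EdgeIso G K ∧ DistortionLE G K := by
  obtain ⟨R, hR, hR'⟩ := H447.hubStmt 2 r hr
  obtain ⟨K, hK0, hK⟩ := grid_free R
  exact ⟨K, hK0, fun V _ G hG hm => hK V G hG fun h =>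
    hm (H578.lk hr hG (minor_trans (H578.sumMonoStmt _ _ _ K33 _ _ hR') h))⟩

/-- deleting `t` vertices -/
theorem apex_of {A K : ℝ} (hA : 1 ≤ A) (hK : 0 ≤ K) {P : ∀ (V : Type), SimpleGraph V → Prop}
    (hA' : ∀ K : ℝ, 0 ≤ K → ∀ (s : ℕ) (V : Type) [Finite V]
      (G : SimpleGraph V), G.Connected → ∀ X : Set V, X.ncard ≤ s →
      (∀ u ∉ X, DistortionLE (G.induce (compSet G X u)) K) →
      DistortionLE G (A * (K + Real.log (s + 2))))
    (h : ∀ (V : Type) [Finite V] (G : SimpleGraph V), G.Connected → P V G → DistortionLE G K)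
    (t : ℕ) (V : Type) [Finite V] (G : SimpleGraph V) (hG : G.Connected)
    (hS : ∃ S : Set V, S.ncard ≤ t ∧ ∀ u ∉ S, P _ (G.induce (compSet G S u))) :
    DistortionLE G (A * (K + Real.log (t + 2))) := by
  obtain ⟨S, hS, hc⟩ := hS
  exact hA' K hK t V G hG S hS fun u hu => h _ _ (comp_connected hu) (hc u hu)

/-- **The hand-in.** -/
theorem main2 : ∃ C : ℝ, 1 ≤ C ∧
    (∀ F : (V : Type) → SimpleGraph V → Prop, MinorClosed F →
      (∃ (r : ℕ) (W : Type) (_ : Finite W) (H : SimpleGraph W), 1 ≤ r ∧ H.Connected ∧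
        IsMinor H (H578.jj r) ∧ ¬ F W H) →
      ∃ K : ℝ, ∀ (V : Type) [Finite V] (G : SimpleGraph V), G.Connected → F V G →
        EdgeIso G K ∧ DistortionLE G K) ∧
    (∀ (P : Type) [Finite P] (H : SimpleGraph P), Planar H →
      ∃ K : ℝ, (∀ (V : Type) [Finite V] (G : SimpleGraph V), G.Connected →
        ¬ IsMinor (K33 ⊕g H) G → EdgeIso G K ∧ DistortionLE G K) ∧
      ∀ (t : ℕ) (V : Type) [Finite V] (G : SimpleGraph V), G.Connected →
        (∃ S : Set V, S.ncard ≤ t ∧ ∀ u ∉ S, ¬ IsMinor (K33 ⊕g H) (G.induce (compSet G S u))) →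
          DistortionLE G (C * (K + Real.log (t + 2)))) ∧
    (∀ (V : Type) [Finite V] (G : SimpleGraph V), G.Connected → ¬ IsMinor K33 G →
      EdgeIso G C ∧ DistortionLE G C) ∧
    (∀ (t : ℕ) (V : Type) [Finite V] (G : SimpleGraph V), G.Connected →
      (∃ S : Set V, S.ncard ≤ t ∧ ∀ u ∉ S, ¬ IsMinor K33 (G.induce (compSet G S u))) →
        DistortionLE G (C * Real.log (t + 2))) ∧
    (∀ (w t : ℕ) (V : Type) [Finite V] (G : SimpleGraph V), G.Connected →
      (∀ (W : Type) [Finite W] (H : SimpleGraph W), H.Connected → Conn3 H → IsMinor H G →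
        ST.H626.PlanePiece w t W H) →
        EdgeIso G (C * (w + Real.log (t + 2))) ∧ DistortionLE G (C * (w + Real.log (t + 2)))) ∧
    (∀ k w t : ℕ, ∃ K : ℝ, ∀ (V : Type) [Finite V] (G : SimpleGraph V), G.Connected →
      (∀ (W : Type) [Finite W] (H : SimpleGraph W), H.Connected → Conn3 H → IsMinor H G →
        ST.H945.PlaneTw k w t W H) → EdgeIso G K ∧ DistortionLE G K) := by
  obtain ⟨C0, hC0, h1, -, h3, h4, h5⟩ := main
  obtain ⟨A, hA, hA'⟩ := apex_log'
  refine ⟨max C0 A, hC0.trans (le_max_left _ _), ?_, ?_, ?_, ?_, ?_, h5⟩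
  · rintro F hF ⟨r, W, hW, H, hr, hH, hm, hFH⟩
    obtain ⟨K, -, hK⟩ := jj_free r hr
    refine ⟨K, fun V _ G hG hFG => hK V G hG fun h => hFH ?_⟩
    exact minor F hF V W G H hG hH (minor_trans hm h) hFG
  · intro P _ H hP
    obtain ⟨K, hK0, hK⟩ := planar_free P H hP
    refine ⟨K, hK, fun t V _ G hG hS => ?_⟩
    refine (apex_of hA hK0 (P := fun V G => ¬ IsMinor (K33 ⊕g H) G) hA'
      (fun V _ G hG h => (hK V G hG h).2) t V G hG hS).mono ?_
    have hlog : (0 : ℝ) ≤ Real.log ((t : ℝ) + 2) :=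
      Real.log_nonneg (by have : (0 : ℝ) ≤ t := Nat.cast_nonneg t; linarith)
    exact mul_le_mul_of_nonneg_right (le_max_right _ _) (by linarith)
  · intro V _ G hG hK
    have h := h1 V G hG hK
    exact ⟨ST.H626.EdgeIso.mono' h.1 (le_max_left _ _), h.2.mono (le_max_left _ _)⟩
  · intro t V _ G hG hS
    refine (h3 t V G hG hS).mono ?_
    have hlog : (0 : ℝ) ≤ Real.log ((t : ℝ) + 2) :=
      Real.log_nonneg (by have : (0 : ℝ) ≤ t := Nat.cast_nonneg t; linarith)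
    exact mul_le_mul_of_nonneg_right (le_max_left _ _) hlog
  · intro w t V _ G hG h
    have h' := h4 w t V G hG h
    have hlog : (0 : ℝ) ≤ Real.log ((t : ℝ) + 2) :=
      Real.log_nonneg (by have : (0 : ℝ) ≤ t := Nat.cast_nonneg t; linarith)
    have hw : (0 : ℝ) ≤ w := Nat.cast_nonneg w
    have h6 : C0 * (w + Real.log ((t : ℝ) + 2)) ≤ max C0 A * (w + Real.log ((t : ℝ) + 2)) :=
      mul_le_mul_of_nonneg_right (le_max_left _ _) (by linarith)
    exact ⟨ST.H626.EdgeIso.mono' h'.1 h6, h'.2.mono h6⟩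

end Vale.Agent.P235.H56
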