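import Vale.Agent.P235.H56.Defs

/-! Thomassen's contractible edges (helper56). -/

namespace Vale.Agent.P235.H56

open SimpleGraph Vale.Agent.P235.H134

theorem exists_ne_two {V : Type} [Finite V] (h : 3 ≤ Nat.card V) (p q : V) :
    ∃ y, y ≠ p ∧ y ≠ q := by
  by_contra hno
  push Not at hno
  have h1 : (Set.univ : Set V) ⊆ {p, q} := by
    intro y _
    by_cases hy : y = p
    · exact Or.inl hy
    · exact Or.inr (hno y hy)
  have h2 := Set.ncard_le_ncard h1 (Set.toFinite _)
  rw [Set.ncard_univ] at h2
  have h3 : ({p, q} : Set V).ncard ≤ 2 := Set.ncard_insert_le p {q} |>.trans (by simp)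
  omega

/-- `C` is cut off by `x, y, z`, `x y` an edge -/
structure Bad {V : Type} (G : SimpleGraph V) (x y z : V) (C : Set V) : Prop where
  adj : G.Adj x y
  ne : C.Nonempty
  hx : x ∉ C
  hy : y ∉ C
  hz : z ∉ C
  cl : ∀ u ∈ C, ∀ v, G.Adj u v → v ∈ C ∨ v = x ∨ v = y ∨ v = z
  out : ∃ w, w ∉ C ∧ w ≠ x ∧ w ≠ y ∧ w ≠ z

theorem bad_of {V : Type} {G : SimpleGraph V} (h3 : Conn3 G) {a b : V} (hab : G.Adj a b)
    (h : ¬ Conn3 (contractEdge G a b)) : ∃ z C, Bad G a b z C := by
  classical
  unfold Conn3 at h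
  push Not at h
  obtain ⟨s, t, C', hne, hs, ht, hcl, y, hy, hys, hyt⟩ := h
  set C0 : Set V := {v | ∃ h : v ≠ b, (⟨v, h⟩ : {x // x ≠ b}) ∈ C'} with hC0
  have hadj : ∀ (u v : {x // x ≠ b}), G.Adj u.1 v.1 → (contractEdge G a b).Adj u v :=
    fun u v huv => ⟨fun he => G.loopless.irrefl _ (by rw [he] at huv; exact huv), Or.inl huv⟩
  have hya : y.1 ∉ C0 := fun ⟨_, h⟩ => hy h
  let a' : {x // x ≠ b} := ⟨a, hab.ne⟩
  by_cases ha : a' ∈ C'
  · exfalso
    have h := h3 s.1 t.1 (insert b C0) ⟨b, Or.inl rfl⟩ (fun h => h.elim s.2 fun ⟨_, h⟩ => hs h)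
      (fun h => h.elim t.2 fun ⟨_, h⟩ => ht h) ?_ y.1
    · rcases h with (h | h) | h | h
      · exact y.2 h
      · exact hya h
      · exact hys (Subtype.ext h)
      · exact hyt (Subtype.ext h)
    · rintro u hu v huv
      by_cases hvb : v = b
      · exact Or.inl (Or.inl hvb)
      by_cases hub : u = b
      · subst hub
        by_cases hva : v = a
        · subst hva
          exact Or.inl (Or.inr ⟨hvb, ha⟩)
        · have h1 : (contractEdge G a u).Adj a' ⟨v, hvb⟩ :=
            ⟨fun he => hva (congrArg Subtype.val he).symm, Or.inr (Or.inl ⟨rfl, huv⟩)⟩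
          rcases hcl a' ha ⟨v, hvb⟩ h1 with h | h | h
          · exact Or.inl (Or.inr ⟨hvb, h⟩)
          · exact Or.inr (Or.inl (congrArg Subtype.val h))
          · exact Or.inr (Or.inr (congrArg Subtype.val h))
      · rcases hu with hu | ⟨hub', hu⟩
        · exact absurd hu hub
        rcases hcl ⟨u, hub'⟩ hu ⟨v, hvb⟩ (hadj _ _ huv) with h | h | h
        · exact Or.inl (Or.inr ⟨hvb, h⟩)
        · exact Or.inr (Or.inl (congrArg Subtype.val h))
        · exact Or.inr (Or.inr (congrArg Subtype.val h))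
  have hne0 : C0.Nonempty := by
    obtain ⟨c, hc⟩ := hne
    exact ⟨c.1, c.2, hc⟩
  have hcl0 : ∀ u ∈ C0, ∀ v, v ≠ b → G.Adj u v → v ∈ C0 ∨ v = s.1 ∨ v = t.1 := by
    rintro u ⟨hub, hu⟩ v hvb huv
    rcases hcl ⟨u, hub⟩ hu ⟨v, hvb⟩ (hadj _ _ huv) with h | h | h
    · exact Or.inl ⟨hvb, h⟩
    · exact Or.inr (Or.inl (congrArg Subtype.val h))
    · exact Or.inr (Or.inr (congrArg Subtype.val h))
  have haC : a ∉ C0 := fun ⟨_, h⟩ => ha h
  have hbC : b ∉ C0 := fun ⟨h, _⟩ => h rfl
  have hsC : s.1 ∉ C0 := fun ⟨_, h⟩ => hs h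
  have htC : t.1 ∉ C0 := fun ⟨_, h⟩ => ht h
  by_cases has : a' = s
  · have has' : a = s.1 := congrArg Subtype.val has
    refine ⟨t.1, C0, hab, hne0, haC, hbC, htC, ?_, y.1, hya, ?_, y.2,
      fun h => hyt (Subtype.ext h)⟩
    · intro u hu v huv
      by_cases hvb : v = b
      · exact Or.inr (Or.inr (Or.inl hvb))
      · rcases hcl0 u hu v hvb huv with h | h | h
        · exact Or.inl h
        · exact Or.inr (Or.inl (h.trans has'.symm))
        · exact Or.inr (Or.inr (Or.inr h))
    · exact fun h => hys (Subtype.ext (h.trans has'))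
  by_cases hat : a' = t
  · have hat' : a = t.1 := congrArg Subtype.val hat
    refine ⟨s.1, C0, hab, hne0, haC, hbC, hsC, ?_, y.1, hya, ?_, y.2,
      fun h => hys (Subtype.ext h)⟩
    · intro u hu v huv
      by_cases hvb : v = b
      · exact Or.inr (Or.inr (Or.inl hvb))
      · rcases hcl0 u hu v hvb huv with h | h | h
        · exact Or.inl h
        · exact Or.inr (Or.inr (Or.inr h))
        · exact Or.inr (Or.inl (h.trans hat'.symm))
    · exact fun h => hyt (Subtype.ext (h.trans hat'))
  exfalso
  have h := h3 s.1 t.1 C0 hne0 hsC htC ?_ y.1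
  · rcases h with h | h | h
    · exact hya h
    · exact hys (Subtype.ext h)
    · exact hyt (Subtype.ext h)
  · intro u hu v huv
    by_cases hvb : v = b
    · exfalso
      subst hvb
      obtain ⟨hub, hu'⟩ := hu
      have hua : u ≠ a := fun h => haC (h ▸ ⟨hub, hu'⟩)
      have h1 : (contractEdge G a v).Adj ⟨u, hub⟩ a' :=
        ⟨fun he => hua (congrArg Subtype.val he), Or.inr (Or.inr ⟨rfl, huv.symm⟩)⟩
      rcases hcl _ hu' _ h1 with h | h | h
      · exact ha h
      · exact has h
      · exact hat h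
    · exact hcl0 u hu v hvb huv

/-- **(T)** -/
theorem tStmt : TStmt := by
  intro V _ G h3 h4
  classical
  by_contra hno
  push Not at hno
  have hbad : ∀ a b, G.Adj a b → ∃ z C, Bad G a b z C := fun a b hab => bad_of h3 hab (hno a b hab)
  have key : ∀ n : ℕ, ∀ x y z C, Bad G x y z C → C.ncard = n → False := by
    intro n
    induction n using Nat.strong_induction_on with
    | _ n ih =>
      intro x y z C hB hn
      -- `z` has a neighbour in `C`
      obtain ⟨v, hvC, hvz⟩ : ∃ v ∈ C, G.Adj v z := by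
        by_contra hc
        push Not at hc
        obtain ⟨w, hw, hwx, hwy, _⟩ := hB.out
        have := h3 x y C hB.ne hB.hx hB.hy (fun u hu v huv => by
          rcases hB.cl u hu v huv with h | h | h | h
          · exact Or.inl h
          · exact Or.inr (Or.inl h)
          · exact Or.inr (Or.inr h)
          · exact absurd (h ▸ huv) (hc u hu)) w
        tauto
      obtain ⟨w, D0, hD0⟩ := hbad z v hvz.symm
      obtain ⟨D, hD, hxD, hyD⟩ : ∃ D, Bad G z v w D ∧ x ∉ D ∧ y ∉ D := by
        by_cases hx : x ∈ D0 ∨ y ∈ D0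
        · refine ⟨{u | u ∉ D0 ∧ u ≠ z ∧ u ≠ v ∧ u ≠ w}, ⟨hD0.adj, ?_, fun h => h.2.1 rfl,
            fun h => h.2.2.1 rfl, fun h => h.2.2.2 rfl, ?_, ?_⟩, ?_, ?_⟩
          · obtain ⟨o, h1, h2, h5, h6⟩ := hD0.out
            exact ⟨o, h1, h2, h5, h6⟩
          · rintro u ⟨hu1, hu2, hu5, hu6⟩ u' huu
            by_cases hu' : u' ∈ D0
            · rcases hD0.cl u' hu' u huu.symm with h | h | h | h
              · exact absurd h hu1
              · exact absurd h hu2
              · exact absurd h hu5
              · exact absurd h hu6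
            · by_cases e1 : u' = z
              · exact Or.inr (Or.inl e1)
              by_cases e2 : u' = v
              · exact Or.inr (Or.inr (Or.inl e2))
              by_cases e3 : u' = w
              · exact Or.inr (Or.inr (Or.inr e3))
              exact Or.inl ⟨hu', e1, e2, e3⟩
          · obtain ⟨d, hd⟩ := hD0.ne
            exact ⟨d, fun h => h.1 hd, fun h => hD0.hx (h ▸ hd), fun h => hD0.hy (h ▸ hd),
              fun h => hD0.hz (h ▸ hd)⟩
          · rintro ⟨h1, h2, h5, h6⟩
            rcases hx with hx | hy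
            · exact h1 hx
            · rcases hD0.cl y hy x hB.adj.symm with h | h | h | h
              · exact h1 h
              · exact h2 h
              · exact h5 h
              · exact h6 h
          · rintro ⟨h1, h2, h5, h6⟩
            rcases hx with hx | hy
            · rcases hD0.cl x hx y hB.adj with h | h | h | h
              · exact h1 h
              · exact h2 h
              · exact h5 h
              · exact h6 h
            · exact h1 hy
        · push Not at hx
          exact ⟨D0, hD0, hx.1, hx.2⟩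
      obtain ⟨d, hdD, hvd⟩ : ∃ d ∈ D, G.Adj d v := by
        by_contra hc
        push Not at hc
        obtain ⟨o, ho, hoz, _, how⟩ := hD.out
        have := h3 z w D hD.ne hD.hx hD.hz (fun u hu v' huv => by
          rcases hD.cl u hu v' huv with h | h | h | h
          · exact Or.inl h
          · exact Or.inr (Or.inl h)
          · exact absurd (h ▸ huv) (hc u hu)
          · exact Or.inr (Or.inr h)) o
        tauto
      have hdC : d ∈ C := by
        rcases hB.cl v hvC d hvd.symm with h | h | h | h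
        · exact h
        · exact absurd (h ▸ hdD) hxD
        · exact absurd (h ▸ hdD) hyD
        · exact absurd (h ▸ hdD) hD.hx
      refine ih (D ∩ C).ncard ?_ z v w (D ∩ C) ⟨hD.adj, ⟨d, hdD, hdC⟩, fun h => hD.hx h.1,
        fun h => hD.hy h.1, fun h => hD.hz h.1, ?_, ?_⟩ rfl
      · rw [← hn]
        refine Set.ncard_lt_ncard ?_ (Set.toFinite _)
        refine ⟨Set.inter_subset_right, fun h => hD.hy (h hvC).1⟩
      · rintro u ⟨huD, huC⟩ u' huu
        rcases hD.cl u huD u' huu with h | h | h | h
        · rcases hB.cl u huC u' huu with h' | h' | h' | h'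
          · exact Or.inl ⟨h, h'⟩
          · exact absurd (h' ▸ h) hxD
          · exact absurd (h' ▸ h) hyD
          · exact absurd (h' ▸ h) hD.hx
        · exact Or.inr (Or.inl h)
        · exact Or.inr (Or.inr (Or.inl h))
        · exact Or.inr (Or.inr (Or.inr h))
      · obtain ⟨o, ho, h1, h2, h5⟩ := hD.out
        exact ⟨o, fun h => ho h.1, h1, h2, h5⟩
  have hne : Nonempty V := by
    by_contra hc
    rw [not_nonempty_iff] at hc
    rw [Nat.card_of_isEmpty] at h4
    omega
  obtain ⟨p⟩ := hne
  obtain ⟨q, hq, _⟩ := exists_ne_two (by omega) p p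
  obtain ⟨r, hr, hrq⟩ := exists_ne_two (by omega) p q
  by_cases he : ∃ u, G.Adj p u
  · obtain ⟨u, hu⟩ := he
    obtain ⟨z, C, hB⟩ := hbad p u hu
    exact key _ _ _ _ _ hB rfl
  · push Not at he
    have := h3 q q {p} ⟨p, rfl⟩ (fun h => hq h) (fun h => hq h)
      (fun u hu v huv => by
        rw [Set.mem_singleton_iff] at hu
        subst hu
        exact absurd huv (he v)) r
    rcases this with h | h | h
    · exact hr h
    · exact hrq h
    · exact hrq h

end Vale.Agent.P235.H56
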