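import Vale.Agent.P235.H56.Core
import Vale.Agent.P235.H56.MinTrans
import Vale.Agent.P235.H56.Thom
import Vale.Agent.P235.R2.H611.Quo

/-! Wagner/Hall: 3-connected graphs without a `K_{3,3}` minor (helper56). -/

set_option linter.all false

namespace Vale.Agent.P235.H56

open SimpleGraph Vale.Agent.P235.H134
open Vale.Agent.P235.H341W (capG)

section

variable {V : Type}

/-- the vertices different from `a` and `b` -/
abbrev V2 (a b : V) : Type := {x : V // x ≠ a ∧ x ≠ b}

/-- `G - {a, b}` -/
abbrev G2 (G : SimpleGraph V) (a b : V) : SimpleGraph (V2 a b) := G.induce {x | x ≠ a ∧ x ≠ b}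

open Classical in
/-- `V = {b} ∪ {a} ∪ V2` -/
noncomputable def eqv {a b : V} (hab : a ≠ b) : V ≃ Option (Option (V2 a b)) where
  toFun x := if hb : x = b then none else if ha : x = a then some none else some (some ⟨x, ha, hb⟩)
  invFun
    | none => b
    | some none => a
    | some (some v) => v.1
  left_inv x := by
    by_cases hb : x = b
    · simp [hb]
    · by_cases ha : x = a
      · simp [hb, ha, hab]
      · simp [hb, ha]
  right_inv x := by
    rcases x with _ | _ | v
    · simp
    · simp [hab]
    · have h1 := v.2.1
      have h2 := v.2.2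
      simp [h1, h2]

theorem eqv_b {a b : V} (hab : a ≠ b) : eqv hab b = none := by simp [eqv]

theorem eqv_a {a b : V} (hab : a ≠ b) : eqv hab a = some none := by simp [eqv, hab]

theorem eqv_v {a b : V} (hab : a ≠ b) {x : V} (ha : x ≠ a) (hb : x ≠ b) :
    eqv hab x = some (some ⟨x, ha, hb⟩) := by simp [eqv, ha, hb]

/-- `G` as a double cap over `G - {a, b}` -/
noncomputable def iso2 (G : SimpleGraph V) {a b : V} (hab : G.Adj a b) :
    G ≃g capG (capG (G2 G a b) {x | G.Adj a x.1}) (insert none (some '' {x | G.Adj b x.1})) where
  toEquiv := eqv hab.ne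
  map_rel_iff' := by
    intro x y
    have hne := hab.ne
    by_cases hxb : x = b
    · subst hxb
      rw [eqv_b hne]
      by_cases hyb : y = x
      · subst hyb
        rw [eqv_b hne]
        exact ⟨fun h => h.elim, fun h => absurd h (G.loopless.irrefl _)⟩
      by_cases hya : y = a
      · subst hya
        rw [eqv_a hne]
        exact ⟨fun _ => hab.symm, fun _ => Or.inl rfl⟩
      · rw [eqv_v hne hya hyb]
        constructor
        · rintro (h | ⟨v, hv, h⟩)
          · simp at h
          · have h1 := Option.some.inj h
            rw [h1] at hv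
            exact hv
        · intro h
          exact Or.inr ⟨⟨y, hya, hyb⟩, h, rfl⟩
    by_cases hxa : x = a
    · subst hxa
      rw [eqv_a hne]
      by_cases hyb : y = b
      · subst hyb
        rw [eqv_b hne]
        exact ⟨fun _ => hab, fun _ => Or.inl rfl⟩
      by_cases hya : y = x
      · subst hya
        rw [eqv_a hne]
        exact ⟨fun h => h.elim, fun h => absurd h (G.loopless.irrefl _)⟩
      · rw [eqv_v hne hya hyb]
        exact Iff.rfl
    rw [eqv_v hne hxa hxb]
    by_cases hyb : y = b
    · subst hyb
      rw [eqv_b hne]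
      constructor
      · rintro (h | ⟨v, hv, h⟩)
        · simp at h
        · have h1 := Option.some.inj h
          rw [h1] at hv
          exact G.adj_symm hv
      · intro h
        exact Or.inr ⟨⟨x, hxa, hxb⟩, G.adj_symm h, rfl⟩
    by_cases hya : y = a
    · subst hya
      rw [eqv_a hne]
      exact ⟨fun h => G.adj_symm h, fun h => G.adj_symm h⟩
    · rw [eqv_v hne hya hyb]
      exact Iff.rfl

open Classical in
/-- `{x ≠ b} = {a} ∪ V2` -/
noncomputable def eqv1 {a b : V} (hab : a ≠ b) : {x : V // x ≠ b} ≃ Option (V2 a b) where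
  toFun x := if ha : x.1 = a then none else some ⟨x.1, ha, x.2⟩
  invFun
    | none => ⟨a, hab⟩
    | some v => ⟨v.1, v.2.2⟩
  left_inv x := by
    by_cases ha : x.1 = a
    · simp only [ha, dif_pos]
      exact Subtype.ext ha.symm
    · simp [ha]
  right_inv x := by
    rcases x with _ | v
    · simp
    · have h1 := v.2.1
      simp [h1]

theorem eqv1_a {a b : V} (hab : a ≠ b) : eqv1 hab ⟨a, hab⟩ = none := by simp [eqv1]

theorem eqv1_v {a b : V} (hab : a ≠ b) {x : {x : V // x ≠ b}} (ha : x.1 ≠ a) :
    eqv1 hab x = some ⟨x.1, ha, x.2⟩ := by simp [eqv1, ha]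

/-- `G / ab` as a cap over `G - {a, b}` -/
noncomputable def iso1 (G : SimpleGraph V) {a b : V} (hab : G.Adj a b) :
    contractEdge G a b ≃g capG (G2 G a b) ({x | G.Adj a x.1} ∪ {x | G.Adj b x.1}) where
  toEquiv := eqv1 hab.ne
  map_rel_iff' := by
    intro x y
    have hne := hab.ne
    by_cases hx : x.1 = a
    · have hx' : x = ⟨a, hne⟩ := Subtype.ext hx
      subst hx'
      rw [eqv1_a hne]
      by_cases hy : y.1 = a
      · have hy' : y = ⟨a, hne⟩ := Subtype.ext hy
        subst hy'
        rw [eqv1_a hne]
        exact ⟨fun h => h.elim, fun h => absurd rfl h.1⟩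
      · rw [eqv1_v hne hy]
        constructor
        · rintro (h | h)
          · exact ⟨fun h' => hy (congrArg Subtype.val h').symm, Or.inl h⟩
          · exact ⟨fun h' => hy (congrArg Subtype.val h').symm, Or.inr (Or.inl ⟨rfl, h⟩)⟩
        · rintro ⟨_, h | ⟨_, h⟩ | ⟨h, _⟩⟩
          · exact Or.inl h
          · exact Or.inr h
          · exact absurd h hy
    · rw [eqv1_v hne hx]
      by_cases hy : y.1 = a
      · have hy' : y = ⟨a, hne⟩ := Subtype.ext hy
        subst hy'
        rw [eqv1_a hne]
        constructor
        · rintro (h | h)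
          · exact ⟨fun h' => hx (congrArg Subtype.val h'), Or.inl (G.adj_symm h)⟩
          · exact ⟨fun h' => hx (congrArg Subtype.val h'), Or.inr (Or.inr ⟨rfl, h⟩)⟩
        · rintro ⟨_, h | ⟨h, _⟩ | ⟨_, h⟩⟩
          · exact Or.inl (G.adj_symm h)
          · exact absurd h hx
          · exact Or.inr h
      · rw [eqv1_v hne hy]
        constructor
        · intro h
          exact ⟨fun h' => G.loopless.irrefl x.1 (by
            have h1 : G.Adj x.1 y.1 := h
            rw [← h'] at h1
            exact h1), Or.inl h⟩
        · rintro ⟨_, h | ⟨h, _⟩ | ⟨h, _⟩⟩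
          · exact h
          · exact absurd h hx
          · exact absurd h hy

/-- degrees in a 3-connected graph -/
theorem two_le_nbr [Finite V] {G : SimpleGraph V} (h3 : Conn3 G) (h4 : 4 ≤ Nat.card V) {a b : V}
    (hab : G.Adj a b) : 2 ≤ ({x | G.Adj a x.1} : Set (V2 a b)).ncard := by
  by_contra hlt
  push Not at hlt
  have h1 : ∃ s : V, s ≠ a ∧ ∀ x, G.Adj a x → x = b ∨ x = s := by
    rcases Set.eq_empty_or_nonempty ({x | G.Adj a x.1} : Set (V2 a b)) with h | ⟨s, hs⟩
    · refine ⟨b, hab.ne', fun x hx => ?_⟩
      by_contra hb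
      push Not at hb
      have : (⟨x, hx.ne', hb.1⟩ : V2 a b) ∈ ({x | G.Adj a x.1} : Set (V2 a b)) := hx
      rw [h] at this
      exact this
    · refine ⟨s.1, s.2.1, fun x hx => ?_⟩
      by_cases hb : x = b
      · exact Or.inl hb
      · right
        have hx' : (⟨x, hx.ne', hb⟩ : V2 a b) ∈ ({x | G.Adj a x.1} : Set (V2 a b)) := hx
        have h2 := (Set.ncard_le_one (Set.toFinite _)).1 (by omega) _ hx' _ hs
        exact congrArg Subtype.val h2
  obtain ⟨s, hsa, hs⟩ := h1
  have h2 := h3 b s {a} ⟨a, rfl⟩ (fun h => hab.ne h.symm) (fun h => hsa h) (fun u hu v huv => by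
    rw [Set.mem_singleton_iff] at hu
    subst hu
    exact Or.inr (hs v huv))
  have h5 : (Set.univ : Set V) ⊆ {a, b, s} := fun y _ => by
    rcases h2 y with h | h | h
    · exact Or.inl h
    · exact Or.inr (Or.inl h)
    · exact Or.inr (Or.inr h)
  have h6 := Set.ncard_le_ncard h5 (Set.toFinite _)
  rw [Set.ncard_univ] at h6
  have h7 : ({a, b, s} : Set V).ncard ≤ 3 :=
    (Set.ncard_insert_le a {b, s}).trans (by
      have := Set.ncard_insert_le b {s}
      rw [Set.ncard_singleton] at this
      omega)
  omega

theorem conn2_of_contract {G : SimpleGraph V} {a b : V} (hab : G.Adj a b)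
    (h : Conn3 (contractEdge G a b)) : Conn2 (G2 G a b) := by
  intro s C hne hs hcl y
  have h1 := h ⟨a, hab.ne⟩ ⟨s.1, s.2.2⟩ {x | ∃ h : x.1 ≠ a, (⟨x.1, h, x.2⟩ : V2 a b) ∈ C}
    (by
      obtain ⟨c, hc⟩ := hne
      exact ⟨⟨c.1, c.2.2⟩, c.2.1, hc⟩) (fun h => h.1 rfl) (fun ⟨_, h⟩ => hs h) ?_ ⟨y.1, y.2.2⟩
  · rcases h1 with ⟨_, h1⟩ | h1 | h1
    · exact Or.inl h1
    · exact absurd (congrArg Subtype.val h1) y.2.1
    · exact Or.inr (Subtype.ext (by have := congrArg Subtype.val h1; exact this))
  · rintro ⟨u, hub⟩ ⟨hua, hu⟩ ⟨v, hvb⟩ ⟨_, huv⟩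
    by_cases hva : v = a
    · exact Or.inr (Or.inl (Subtype.ext hva))
    · have huv' : G.Adj u v := by
        rcases huv with h | ⟨h, _⟩ | ⟨h, _⟩
        · exact h
        · exact absurd h hua
        · exact absurd h hva
      rcases hcl ⟨u, hua, hub⟩ hu ⟨v, hva, hvb⟩ huv' with h | h
      · exact Or.inl ⟨hva, h⟩
      · exact Or.inr (Or.inr (Subtype.ext (by have := congrArg Subtype.val h; exact this)))

theorem card_V2 [Finite V] {a b : V} (hab : a ≠ b) : Nat.card (V2 a b) + 2 = Nat.card V := by
  rw [Nat.card_congr (eqv hab), Finite.card_option, Finite.card_option]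

theorem card_V1 [Finite V] {a b : V} (hab : a ≠ b) :
    Nat.card {x : V // x ≠ b} + 1 = Nat.card V := by
  rw [← card_V2 hab, Nat.card_congr (eqv1 hab), Finite.card_option]

end

/-- **(B)** from the blocks -/
theorem thmB_of (hT : TStmt) (hN3 : N3Stmt) (hK5 : K5Stmt) (hK4 : K4Stmt) (hC : CoreStmt) :
    ThmB := by
  have key : ∀ n : ℕ, ∀ (V : Type) [Finite V] (G : SimpleGraph V), Nat.card V = n → Conn3 G →
      4 ≤ Nat.card V → ¬ IsMinor K33 G →
      (∃ σ : Equiv.Perm G.Dart, PlaneMap G σ) ∨
        (Nat.card V = 5 ∧ ∀ x y, x ≠ y → G.Adj x y) := by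
    intro n
    induction n using Nat.strong_induction_on with
    | _ n ih =>
      intro V _ G hn h3 h4 hK
      by_cases h44 : Nat.card V = 4
      · exact Or.inl (hK4 V G h3 h44)
      obtain ⟨a, b, hab, hH3⟩ := hT V G h3 h4
      have hne := hab.ne
      have hc1 := card_V1 (V := V) hne
      have hc2 := card_V2 (V := V) hne
      have hHK : ¬ IsMinor K33 (contractEdge G a b) := fun h =>
        hK (minor_trans h (contract_minor hab))
      rcases ih (Nat.card {x : V // x ≠ b}) (by omega) _ (contractEdge G a b) rfl hH3 (by omega)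
        hHK with hpl | ⟨h5, hcomp⟩
      · -- `G / ab` is plane
        have h2 := conn2_of_contract hab hH3
        have hA := two_le_nbr h3 h4 hab
        have hB' := two_le_nbr h3 h4 hab.symm
        have hB : 2 ≤ ({x | G.Adj b x.1} : Set (V2 a b)).ncard := by
          refine hB'.trans (le_of_eq ?_)
          refine Set.ncard_congr (fun x _ => (⟨x.1, x.2.2, x.2.1⟩ : V2 a b)) ?_ ?_ ?_
          · intro x hx; exact hx
          · intro x y _ _ h
            exact Subtype.ext (by have := congrArg Subtype.val h; exact this)
          · intro y hy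
            exact ⟨⟨y.1, y.2.2, y.2.1⟩, hy, rfl⟩
        have hτ := Quo.planeMap_iso (iso1 G hab) hpl
        have hK' : ¬ IsMinor K33 (capG (capG (G2 G a b) {x | G.Adj a x.1})
            (insert none (some '' {x | G.Adj b x.1}))) := by
          rintro ⟨μ, m1, m2, m3⟩
          refine hK (minor_trans ⟨μ, m1, m2, m3⟩ ?_)
          refine ⟨fun x => {(iso2 G hab).symm x}, fun x => conn_single _ _, fun x y hxy => ?_,
            fun x y hxy => ⟨_, rfl, _, rfl, (iso2 G hab).symm.map_rel_iff.2 hxy⟩⟩
          rw [Set.disjoint_singleton]
          exact fun h => hxy ((iso2 G hab).symm.injective h)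
        rcases hC (V2 a b) (G2 G a b) {x | G.Adj a x.1} {x | G.Adj b x.1} h2 (by omega) hτ hA hB
          hK' with h | ⟨hAB, hA3⟩
        · exact Or.inl (Quo.planeMap_iso (iso2 G hab).symm h)
        · obtain ⟨c₁, c₂, c₃, h12, h13, h23, hset⟩ := Set.ncard_eq_three.1 hA3
          have hadjA : ∀ x : V2 a b, G.Adj a x.1 ↔ x = c₁ ∨ x = c₂ ∨ x = c₃ := by
            intro x
            have : x ∈ ({x | G.Adj a x.1} : Set (V2 a b)) ↔ x ∈ ({c₁, c₂, c₃} : Set (V2 a b)) := by
              rw [hset]
            exact this
          have hadjB : ∀ x : V2 a b, G.Adj b x.1 ↔ x = c₁ ∨ x = c₂ ∨ x = c₃ := by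
            intro x
            have : x ∈ ({x | G.Adj b x.1} : Set (V2 a b)) ↔ x ∈ ({c₁, c₂, c₃} : Set (V2 a b)) := by
              rw [← hset, hAB]
            exact this
          by_cases h6 : 6 ≤ Nat.card V
          · exfalso
            refine hK (hN3 V G a b c₁.1 c₂.1 c₃.1 h3 h6 hne ?_ ?_ (fun h => h12 (Subtype.ext h))
              (fun h => h13 (Subtype.ext h)) (fun h => h23 (Subtype.ext h)))
            · intro x
              constructor
              · intro hx
                by_cases hxb : x = b
                · exact Or.inl hxb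
                · rcases (hadjA ⟨x, hx.ne', hxb⟩).1 hx with h | h | h
                  · exact Or.inr (Or.inl (congrArg Subtype.val h))
                  · exact Or.inr (Or.inr (Or.inl (congrArg Subtype.val h)))
                  · exact Or.inr (Or.inr (Or.inr (congrArg Subtype.val h)))
              · rintro (rfl | rfl | rfl | rfl)
                · exact hab
                · exact (hadjA c₁).2 (Or.inl rfl)
                · exact (hadjA c₂).2 (Or.inr (Or.inl rfl))
                · exact (hadjA c₃).2 (Or.inr (Or.inr rfl))
            · intro x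
              constructor
              · intro hx
                by_cases hxa : x = a
                · exact Or.inl hxa
                · rcases (hadjB ⟨x, hxa, hx.ne'⟩).1 hx with h | h | h
                  · exact Or.inr (Or.inl (congrArg Subtype.val h))
                  · exact Or.inr (Or.inr (Or.inl (congrArg Subtype.val h)))
                  · exact Or.inr (Or.inr (Or.inr (congrArg Subtype.val h)))
              · rintro (rfl | rfl | rfl | rfl)
                · exact hab.symm
                · exact (hadjB c₁).2 (Or.inl rfl)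
                · exact (hadjB c₂).2 (Or.inr (Or.inl rfl))
                · exact (hadjB c₃).2 (Or.inr (Or.inr rfl))
          · -- five vertices
            have h5 : Nat.card V = 5 := by omega
            have hV3 : Nat.card (V2 a b) = 3 := by omega
            have huniv : ∀ x : V2 a b, x = c₁ ∨ x = c₂ ∨ x = c₃ := by
              have h7 : ({c₁, c₂, c₃} : Set (V2 a b)) = Set.univ := by
                refine Set.eq_of_subset_of_ncard_le (Set.subset_univ _) ?_ (Set.toFinite _)
                rw [Set.ncard_univ, hV3, ← hset, hA3]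
              intro x
              have : x ∈ ({c₁, c₂, c₃} : Set (V2 a b)) := by rw [h7]; trivial
              exact this
            have hcc : ∀ x y : V2 a b, x ≠ y → G.Adj x.1 y.1 := by
              intro x y hxy
              by_contra hno
              -- the third vertex separates
              obtain ⟨z, hz, hzx, hzy⟩ : ∃ z : V2 a b, (∀ w, w = x ∨ w = y ∨ w = z) ∧ z ≠ x ∧
                  z ≠ y := by
                rcases huniv x with rfl | rfl | rfl <;> rcases huniv y with rfl | rfl | rfl
                · exact absurd rfl hxy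
                · exact ⟨c₃, huniv, h13.symm, h23.symm⟩
                · exact ⟨c₂, fun w => by rcases huniv w with h | h | h <;> tauto, h12.symm, h23⟩
                · exact ⟨c₃, fun w => by rcases huniv w with h | h | h <;> tauto, h23.symm,
                    h13.symm⟩
                · exact absurd rfl hxy
                · exact ⟨c₁, fun w => by rcases huniv w with h | h | h <;> tauto, h12, h13⟩
                · exact ⟨c₂, fun w => by rcases huniv w with h | h | h <;> tauto, h23, h12.symm⟩
                · exact ⟨c₁, fun w => by rcases huniv w with h | h | h <;> tauto, h13, h12⟩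
                · exact absurd rfl hxy
              have := h2 z {x} ⟨x, rfl⟩ (fun h => hzx h) (fun u hu v huv => by
                rw [Set.mem_singleton_iff] at hu
                subst hu
                rcases hz v with h | h | h
                · exact Or.inl h
                · subst h
                  exact absurd huv hno
                · exact Or.inr h) y
              rcases this with h | h
              · exact hxy h.symm
              · exact hzy h.symm
            refine Or.inr ⟨h5, fun x y hxy => ?_⟩
            by_cases hxa : x = a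
            · subst hxa
              by_cases hyb : y = b
              · rw [hyb]; exact hab
              · exact (hadjA ⟨y, hxy.symm, hyb⟩).2 (huniv _)
            by_cases hxb : x = b
            · subst hxb
              by_cases hya : y = a
              · rw [hya]; exact hab.symm
              · exact (hadjB ⟨y, hya, hxy.symm⟩).2 (huniv _)
            by_cases hya : y = a
            · subst hya
              exact ((hadjA ⟨x, hxa, hxb⟩).2 (huniv _)).symm
            by_cases hyb : y = b
            · subst hyb
              exact ((hadjB ⟨x, hxa, hxb⟩).2 (huniv _)).symm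
            exact hcc ⟨x, hxa, hxb⟩ ⟨y, hya, hyb⟩ (fun h => hxy (congrArg Subtype.val h))
      · exfalso
        exact hK (hK5 V G a b hab h3 (by omega) (fun x y hxy => hcomp x y hxy))
  intro V _ G h3 h4 hK
  exact key _ V G rfl h3 h4 hK

end Vale.Agent.P235.H56
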