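import Vale.Agent.P235.H56.Asm
import Vale.Agent.P235.H191.Dec
import Vale.Agent.P235.H141.N3
import Vale.Agent.P235.H141.K5
import Vale.Agent.P235.H141.Decap
import Vale.Agent.P235.H477.K4
import Vale.Agent.P235.H477.Emb
import Vale.Agent.P235.H332.Arc
import Vale.Agent.P235.H248.Cross

/-! The structure theorem for graphs without a `K_{3,3}` minor (helper56, from all blocks). -/

set_option linter.all false

namespace Vale.Agent.P235.H56

open SimpleGraph Vale.Agent.P235.H134

theorem coreStmt : CoreStmt :=
  core_of H332.arcStmt H248.crossStmt H477.embStmt H141.decapStmt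

/-- **Wagner, Hall**: a 3-connected graph with at least four vertices and without a `K_{3,3}` minor
is plane or `K_5`. -/
theorem thmB : ThmB :=
  thmB_of tStmt H141.n3Stmt H141.k5Stmt H477.k4Stmt coreStmt

/-- plane graphs and graphs with at most five vertices -/
def PlaneOrFive (V : Type) (G : SimpleGraph V) : Prop :=
  (G.Connected ∧ ∃ σ : Equiv.Perm G.Dart, PlaneMap G σ) ∨ (Finite V ∧ Nat.card V ≤ 5)

/-- **Wagner**: a connected graph without a `K_{3,3}` minor is an edge sum of plane graphs and
graphs with at most five vertices. -/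
theorem k33_free_sum (V : Type) [Finite V] (G : SimpleGraph V) (hG : G.Connected)
    (hK : ¬ IsMinor K33 G) : EdgeSumOf PlaneOrFive G := by
  refine H191.edgeSumOf_mono ?_ (H191.decStmt V G hG)
  rintro W H ⟨hW, hH, hm, h3⟩
  haveI := hW
  by_cases hW3 : Nat.card W ≤ 3
  · exact Or.inr ⟨hW, by omega⟩
  · have h3' : Conn3 H := h3.resolve_right hW3
    rcases thmB W H h3' (by omega) (fun h => hK (minor_trans h hm)) with h | h
    · exact Or.inl ⟨hH, h⟩
    · exact Or.inr ⟨hW, by omega⟩

end Vale.Agent.P235.H56
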