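import Vale.Agent.P235.H750.VDefs2
import Vale.Agent.P235.H12.BDefs
import Vale.Agent.P235.H830.QDefs

/-!
# Unavoidable pairs of rooted minors: definitions and statements (helper56)

At every vertex of a graph with large `c₁` there is a rooted minor `(Q r, a)` or `(Q r, x)`.
Gluing at a vertex, relative to one rooted graph `(F, f)`.  Statements only: each block proves
`theorem … : XStmt`.
-/

set_option autoImplicit false

namespace Vale.Agent.P235.H56

open SimpleGraph Vale.Agent.P235 Vale.Agent.P235.H134 Vale.Agent.P235.H606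
open Vale.Agent.P235.H750

/-- the vertex `a` of the triangle of `Q r` -/
def qa (r : ℕ) : (Fin 3 ⊕ Fin 2) ⊕ (Fin r × Fin r) := Sum.inl (Sum.inl 0)

/-- one of the two vertices of `Q r` joined to the triangle -/
def qx (r : ℕ) : (Fin 3 ⊕ Fin 2) ⊕ (Fin r × Fin r) := Sum.inl (Sum.inr 0)

/-- `(F, f)` or `(H, h)` is a rooted minor, at every vertex of every graph with large `c₁` -/
def RF2 {U W : Type} (F : SimpleGraph U) (f : U) (H : SimpleGraph W) (h : W) : Prop :=
  ∀ r : ℕ, ∃ C : ℝ, ∀ (V : Type) [Finite V] (G : SimpleGraph V) (b : V), G.Connected →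
    Kr.NoK r G → ¬ RMinor F f G b → ¬ RMinor H h G b → DistortionLE G C

/-- (COV) whichever vertex of `Q s` is the root -/
def CovStmt : Prop := ∀ r : ℕ, 1 ≤ r → ∃ s : ℕ, ∀ k : (Fin 3 ⊕ Fin 2) ⊕ (Fin s × Fin s),
  RMinor (H830.Q r) (qa r) (H830.Q s) k ∨ RMinor (H830.Q r) (qx r) (H830.Q s) k

/-- (ONEB2) the model: as `OneBStmt`, the leaves have any property `P0` which passes to connected
supersets; the exception is a leaf `L`, entered from `b` through `B` at its vertex `y`, without the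
rooted minor `(T, v)` at `y` -/
def OneB2Stmt : Prop :=
  ∀ (W : Type) [Finite W] (H : SimpleGraph W) (S T : Set W) (v : W) (_ : v ∈ S) (hT : v ∈ T),
    S ∪ T = Set.univ → S ∩ T = {v} → (∀ a b, a ∉ T → b ∉ S → ¬ H.Adj a b) →
    (H.induce S).Connected →
    ∀ (V X : Type) [Finite V] [Finite X] (G : SimpleGraph V) (Q : SimpleGraph X) (p : V → X)
      (b : V) (h : S) (P0 : Set V → Prop), G.Connected →
      (∀ L L' : Set V, L ⊆ L' → (G.induce L).Connected → (G.induce L').Connected → P0 L →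
        P0 L') →
      (∀ a, (G.induce {v | p v = a}).Connected ∧
        StarIn G (Nat.card W + 3) P0 {v | p v = a}) →
      (∀ x y, Q.Adj x y → ∃ u v, G.Adj u v ∧ p u = x ∧ p v = y) →
      RMinor (H.induce S) h Q (p b) →
      RMinor H h.1 G b ∨ ∃ (L B : Set V) (y z : V), (G.induce L).Connected ∧ P0 L ∧ y ∈ L ∧
        (G.induce B).Connected ∧ b ∈ B ∧ z ∈ B ∧ G.Adj z y ∧ Disjoint B L ∧
        ¬ ∃ μ : T → Set V, (∀ a, (G.induce (μ a)).Connected ∧ μ a ⊆ L) ∧
          (∀ a b, a ≠ b → Disjoint (μ a) (μ b)) ∧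
          (∀ a b, (H.induce T).Adj a b → ∃ x ∈ μ a, ∃ y ∈ μ b, G.Adj x y) ∧ y ∈ μ ⟨v, hT⟩

/-- (ONE2) gluing at a vertex, relative to `(F, f)`; from NEST, ALLSTAR and ONEB2 -/
def One2Stmt : Prop :=
  ∀ (U W : Type) [Finite U] [Finite W] (F : SimpleGraph U) (f : U) (H : SimpleGraph W)
    (S T : Set W) (v : W) (_ : v ∈ S) (hT : v ∈ T),
    S ∪ T = Set.univ → S ∩ T = {v} → (∀ a b, a ∉ T → b ∉ S → ¬ H.Adj a b) →
    (H.induce S).Connected → (H.induce T).Connected → RF2 F f (H.induce T) ⟨v, hT⟩ →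
    ∀ h : S, RF2 F f (H.induce S) h → RF2 F f H h.1

/-- the connected rooted graphs built from rooted graphs of `B` by gluing at a vertex: the second
graph is glued at its root, the root is that of the first graph -/
inductive RSum (B : ∀ W : Type, SimpleGraph W → W → Prop) : ∀ {W : Type}, SimpleGraph W → W → Prop
  | base {W : Type} {H : SimpleGraph W} {h : W} : B W H h → RSum B H h
  | glue {W : Type} {H : SimpleGraph W} {S T : Set W} {v : W} (h : S) (_ : v ∈ S) (hT : v ∈ T) :
      S ∪ T = Set.univ → S ∩ T = {v} → (∀ a b, a ∉ T → b ∉ S → ¬ H.Adj a b) →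
      RSum B (H.induce S) h → RSum B (H.induce T) ⟨v, hT⟩ → RSum B H h.1

/-- connected and planar, or `K_{3,3}`, or a rooted minor of some `(Q r, q r)` -/
def QBlock (q : ∀ r : ℕ, (Fin 3 ⊕ Fin 2) ⊕ (Fin r × Fin r)) (W : Type) (H : SimpleGraph W)
    (h : W) : Prop :=
  Finite W ∧ H.Connected ∧ (Planar H ∨
    Nonempty (H ≃g completeBipartiteGraph (Fin 3) (Fin 3)) ∨
    ∃ r, 1 ≤ r ∧ RMinor H h (H830.Q r) (q r))

/-- (TREE) graphs which are built in both ways are good excluded minors -/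
def TreeStmt : Prop :=
  ∀ (W : Type) [Finite W] (H : SimpleGraph W) (h h' : W), RSum (QBlock qa) H h →
    RSum (QBlock qx) H h' → ∃ C : ℝ, Free H C

end Vale.Agent.P235.H56
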