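import Vale.Agent.P235.H56.RDefs
import Vale.Agent.P235.H56.Bound3

/-! A root at every vertex: `(Q r, a)` or `(Q s, x)` (helper56). -/

set_option linter.all false

namespace Vale.Agent.P235.H56

open SimpleGraph hiding Free
open Vale.Agent.P235 Vale.Agent.P235.H134 Vale.Agent.P235.H606
open Vale.Agent.P235.H750 (RMinor RFree)

/-- some vertex can be made the root at `b` -/
theorem exists_root {W V : Type} [Nonempty W] {H : SimpleGraph W} {G : SimpleGraph V}
    (hG : G.Connected) (h : IsMinor H G) (b : V) : ∃ k, RMinor H k G b := by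
  classical
  obtain ⟨μ, h1, h2, h3⟩ := h
  obtain ⟨a0⟩ := (inferInstance : Nonempty W)
  obtain ⟨⟨x0, hx0⟩⟩ := (h1 a0).nonempty
  obtain ⟨P, hbP, hP, p, hpP, hp, huniq⟩ := H12.exists_leg hG b (B := ⋃ a, μ a)
    ⟨x0, Set.mem_iUnion.2 ⟨a0, hx0⟩⟩
  obtain ⟨k, hk⟩ := Set.mem_iUnion.1 hp
  have hPd : ∀ a, a ≠ k → Disjoint P (μ a) := by
    intro a ha
    rw [Set.disjoint_left]
    intro x hx hxa
    have := huniq x hx (Set.mem_iUnion.2 ⟨a, hxa⟩)
    subst this
    exact Set.disjoint_left.1 (h2 a k ha) hxa hk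
  have hsub : ∀ a, μ a ⊆ (if a = k then μ k ∪ P else μ a) := by
    intro a
    by_cases ha : a = k
    · rw [if_pos ha, ha]
      exact Set.subset_union_left
    · rw [if_neg ha]
  refine ⟨k, fun a => if a = k then μ k ∪ P else μ a, ?_, ?_, ?_, ?_⟩
  · intro a
    show (G.induce (if a = k then μ k ∪ P else μ a)).Connected
    by_cases ha : a = k
    · rw [if_pos ha]
      exact induce_union_connected (h1 k).preconnected hP.preconnected ⟨p, hk, hpP⟩
    · rw [if_neg ha]
      exact h1 a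
  · intro a a' haa
    show Disjoint (if a = k then μ k ∪ P else μ a) (if a' = k then μ k ∪ P else μ a')
    by_cases ha : a = k
    · have ha' : a' ≠ k := fun e => haa (ha.trans e.symm)
      rw [if_pos ha, if_neg ha', Set.disjoint_union_left]
      exact ⟨h2 k a' (Ne.symm ha'), hPd a' ha'⟩
    · rw [if_neg ha]
      by_cases ha' : a' = k
      · rw [if_pos ha', Set.disjoint_union_right]
        exact ⟨h2 a k ha, (hPd a ha).symm⟩
      · rw [if_neg ha']
        exact h2 a a' haa
  · intro a a' haa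
    obtain ⟨x, hx, y, hy, hxy⟩ := h3 a a' haa
    exact ⟨x, hsub a hx, y, hsub a' hy, hxy⟩
  · show b ∈ (if k = k then μ k ∪ P else μ k)
    rw [if_pos rfl]
    exact Or.inr hbP

/-- (COVR) -/
theorem rf2_q (hS : H830.SPrimeStmt) (hM : H830.MonoQStmt) (hC : CovStmt)
    (hR : ∀ r s : ℕ, r ≤ s → RMinor (H830.Q r) (qa r) (H830.Q s) (qa s) ∧
      RMinor (H830.Q r) (qx r) (H830.Q s) (qx s))
    (htr : ∀ {W X V : Type} {H : SimpleGraph W} {K : SimpleGraph X} {G : SimpleGraph V}
      {h : W} {t : X} {v : V}, RMinor H h K t → RMinor K t G v → RMinor H h G v)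
    (r s : ℕ) : RF2 (H830.Q r) (qa r) (H830.Q s) (qx s) := by
  obtain ⟨n, hn⟩ := hC (max (max r s) 1) (le_max_right _ _)
  obtain ⟨K, -, hK⟩ := q_free hS hM n
  refine fun _ => ⟨K, fun V _ G b hG _ h1 h2 => ?_⟩
  by_contra hbad
  have hm : IsMinor (H830.Q n) G := by
    by_contra hno
    exact hbad (hK V G hG hno).2
  obtain ⟨k, hk⟩ := exists_root hG hm b
  have e1 : r ≤ max (max r s) 1 := (le_max_left r s).trans (le_max_left _ _)
  have e2 : s ≤ max (max r s) 1 := (le_max_right r s).trans (le_max_left _ _)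
  rcases hn k with h | h
  · exact h1 (htr (hR r _ e1).1 (htr h hk))
  · exact h2 (htr (hR s _ e2).2 (htr h hk))

end Vale.Agent.P235.H56
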