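import Vale.Agent.P235.H56.RDefs
import Vale.Agent.P235.H427.Blk

/-! Trees of rooted minors of the `Q r` (helper56). -/

set_option autoImplicit false

namespace Vale.Agent.P235.H56

open SimpleGraph Vale.Agent.P235 Vale.Agent.P235.H134 Vale.Agent.P235.H606
open Vale.Agent.P235.H750

theorem rf2_symm {U W : Type} {F : SimpleGraph U} {f : U} {H : SimpleGraph W} {h : W}
    (hF : RF2 F f H h) : RF2 H h F f := fun r => by
  obtain ⟨C, hC⟩ := hF r
  exact ⟨C, fun V _ G b hG hr h1 h2 => hC V G b hG hr h2 h1⟩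

theorem rf2_mono {U W X : Type} {F : SimpleGraph U} {f : U} {H : SimpleGraph W} {h : W}
    {K : SimpleGraph X} {k : X} (h1 : RMinor H h K k) (h2 : RF2 F f K k) : RF2 F f H h :=
  fun r => by
  obtain ⟨C, hC⟩ := h2 r
  exact ⟨C, fun V _ G b hG hr hf hno => hC V G b hG hr hf fun h3 =>
    hno (H427.rminor_trans' h1 h3)⟩

theorem rf2_of {U W : Type} {F : SimpleGraph U} {f : U} {H : SimpleGraph W} {h : W}
    (hH : RFree H h) : RF2 F f H h := fun r => by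
  obtain ⟨C, hC⟩ := hH r
  exact ⟨C, fun V _ G b hG hr _ hno => hC V G b hG hr hno⟩

/-- trees glued from rooted minors of the `(Q r, q r)` -/
theorem rsum_rf2 (hOne : One2Stmt) (h33 : RK33Stmt) (hGrid : RGridStmt) (hP : PlanarStmt)
    {U : Type} [Finite U] {F : SimpleGraph U} {f : U}
    {q : ∀ r : ℕ, (Fin 3 ⊕ Fin 2) ⊕ (Fin r × Fin r)}
    (hq : ∀ r, 1 ≤ r → RF2 F f (H830.Q r) (q r)) {W : Type} {H : SimpleGraph W} {h : W}
    (hH : RSum (QBlock q) H h) : Finite W ∧ H.Connected ∧ RF2 F f H h := by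
  induction hH with
  | @base W H h hB =>
    obtain ⟨hW, hc, hpl | ⟨⟨e⟩⟩ | ⟨r, hr, hm⟩⟩ := hB
    · refine ⟨hW, hc, rf2_of ?_⟩
      obtain ⟨r, -, μ, m1, m2, m3⟩ := hP W H hpl
      obtain ⟨x, hx⟩ := (m1 h).nonempty
      exact H427.rfree_mono ⟨μ, m1, m2, m3, hx⟩ (hGrid r x)
    · exact ⟨hW, hc, rf2_of (H427.rfree_mono (H427.rminor_iso e h) (h33 (e h)))⟩
    · exact ⟨hW, hc, rf2_mono hm (hq r hr)⟩
  | @glue W H S T v h hvS hvT hST hST' hadj _ _ ihS ihT =>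
    obtain ⟨hSf, hSc, hSr⟩ := ihS
    obtain ⟨hTf, hTc, hTr⟩ := ihT
    have hW : Finite W := by
      rw [← Set.finite_univ_iff, ← hST]
      exact (Set.toFinite S).union (Set.toFinite T)
    exact ⟨hW, H427.conn_glue hvS hvT hST hSc hTc,
      hOne U W F f H S T v hvS hvT hST hST' hadj hSc hTc hTr h hSr⟩

/-- **(TREE)** -/
theorem tree_of (hOne : One2Stmt) (h33 : RK33Stmt) (hGrid : RGridStmt) (hP : PlanarStmt)
    (hq : ∀ r s, 1 ≤ r → 1 ≤ s → RF2 (H830.Q r) (qa r) (H830.Q s) (qx s)) : TreeStmt := by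
  intro W _ H h h' hA hX
  obtain ⟨-, -, h2⟩ := rsum_rf2 hOne h33 hGrid hP (F := H) (f := h') (q := qa)
    (fun r hr => rf2_symm (rsum_rf2 hOne h33 hGrid hP (F := H830.Q r) (f := qa r) (q := qx)
      (fun s hs => hq r s hr hs) hX).2.2) hA
  obtain ⟨C, hC⟩ := h2 (Nat.card W)
  refine ⟨C, fun V _ G hG hno => ?_⟩
  obtain ⟨b⟩ := hG.nonempty
  have hn : ∀ k, ¬ RMinor H k G b := fun k ⟨μ, m1, m2, m3, _⟩ => hno ⟨μ, m1, m2, m3⟩
  exact hC V G b hG (H786.noK_of le_rfl hno) (hn _) (hn _)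

end Vale.Agent.P235.H56
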