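import Vale.Agent.P235.H134.Grid.Defs
import Vale.Agent.P235.R2.H341.CapDefs

/-!
# Graphs without a `K_{3,3}` minor: statements (helper56)

Everything is a typed interface: each block proves `theorem … : XStmt`.
-/

namespace Vale.Agent.P235.H56

open SimpleGraph Vale.Agent.P235.H134
open Vale.Agent.P235.H341W (capG)

/-- no two vertices (or one vertex) separate `G`: a nonempty set `C` all whose outer neighbours are
among `s`, `t ∉ C` contains all other vertices -/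
def Conn3 {V : Type} (G : SimpleGraph V) : Prop :=
  ∀ (s t : V) (C : Set V), C.Nonempty → s ∉ C → t ∉ C →
    (∀ u ∈ C, ∀ v, G.Adj u v → v ∈ C ∨ v = s ∨ v = t) → ∀ y, y ∈ C ∨ y = s ∨ y = t

/-- no vertex separates `G` -/
def Conn2 {V : Type} (G : SimpleGraph V) : Prop :=
  ∀ (s : V) (C : Set V), C.Nonempty → s ∉ C →
    (∀ u ∈ C, ∀ v, G.Adj u v → v ∈ C ∨ v = s) → ∀ y, y ∈ C ∨ y = s

/-- `K_{3,3}` -/
abbrev K33 : SimpleGraph (Fin 3 ⊕ Fin 3) := completeBipartiteGraph (Fin 3) (Fin 3)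

/-- (T) Thomassen: contractible edges. -/
def TStmt : Prop :=
  ∀ (V : Type) [Finite V] (G : SimpleGraph V), Conn3 G → 4 ≤ Nat.card V →
    ∃ a b : V, G.Adj a b ∧ Conn3 (contractEdge G a b)

/-- (N3) `a`, `b` adjacent, both with the neighbours `c₁, c₂, c₃` and no others. -/
def N3Stmt : Prop :=
  ∀ (V : Type) [Finite V] (G : SimpleGraph V) (a b c₁ c₂ c₃ : V), Conn3 G → 6 ≤ Nat.card V →
    a ≠ b → (∀ x, G.Adj a x ↔ x = b ∨ x = c₁ ∨ x = c₂ ∨ x = c₃) →
    (∀ x, G.Adj b x ↔ x = a ∨ x = c₁ ∨ x = c₂ ∨ x = c₃) → c₁ ≠ c₂ → c₁ ≠ c₃ → c₂ ≠ c₃ →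
    IsMinor K33 G

/-- (K5) six vertices, contraction of an edge gives `K_5`. -/
def K5Stmt : Prop :=
  ∀ (V : Type) [Finite V] (G : SimpleGraph V) (a b : V), G.Adj a b → Conn3 G → Nat.card V = 6 →
    (∀ x y : {x : V // x ≠ b}, x ≠ y → (contractEdge G a b).Adj x y) → IsMinor K33 G

/-- (K4) four vertices. -/
def K4Stmt : Prop :=
  ∀ (V : Type) [Finite V] (G : SimpleGraph V), Conn3 G → Nat.card V = 4 →
    ∃ σ : Equiv.Perm G.Dart, PlaneMap G σ

/-- (Core) `G₀` 2-connected, a plane map of `G₀` and one vertex joined to `A ∪ B`. Split this vertex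
into `a` (joined to `A`) and `b` (joined to `B` and `a`). -/
def CoreStmt : Prop :=
  ∀ (V : Type) [Finite V] (G : SimpleGraph V) (A B : Set V), Conn2 G → 3 ≤ Nat.card V →
    (∃ τ : Equiv.Perm (capG G (A ∪ B)).Dart, PlaneMap (capG G (A ∪ B)) τ) →
    2 ≤ A.ncard → 2 ≤ B.ncard →
    ¬ IsMinor K33 (capG (capG G A) (insert none (some '' B))) →
    (∃ σ : Equiv.Perm (capG (capG G A) (insert none (some '' B))).Dart,
      PlaneMap (capG (capG G A) (insert none (some '' B))) σ) ∨ (A = B ∧ A.ncard = 3)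

/-- (B) Wagner, Hall: a 3-connected graph without a `K_{3,3}` minor is plane or `K_5`. -/
def ThmB : Prop :=
  ∀ (V : Type) [Finite V] (G : SimpleGraph V), Conn3 G → 4 ≤ Nat.card V → ¬ IsMinor K33 G →
    (∃ σ : Equiv.Perm G.Dart, PlaneMap G σ) ∨ (Nat.card V = 5 ∧ ∀ x y, x ≠ y → G.Adj x y)

end Vale.Agent.P235.H56
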