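import Vale.Agent.P235.H56.Fin
import Vale.Agent.P235.H134.Grid.MinorRow
import Vale.Agent.P235.H536.Sharp
import Vale.Agent.P235.ST.H945.All6

/-! `c₁` of the graphs without a `K_{3,3}` minor (helper56). -/

set_option linter.all false

namespace Vale.Agent.P235.H56

open SimpleGraph Vale.Agent.P235.H134

/-- few vertices: one bag -/
theorem tw_small {V : Type} [Finite V] (G : SimpleGraph V) {k : ℕ} (h : Nat.card V ≤ k + 1) :
    TreewidthLE G k := by
  classical
  have := Fintype.ofFinite V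
  refine ⟨Unit, inferInstance, ⊥, fun _ => Finset.univ, ?_, fun v => ⟨(), Finset.mem_univ v⟩,
    fun u v _ => ⟨(), Finset.mem_univ u, Finset.mem_univ v⟩, fun v => ?_, fun _ => ?_⟩
  · refine ⟨⟨fun x y => ?_⟩, isAcyclic_bot⟩
    rw [Subsingleton.elim x y]
  · intro x y
    rw [Subsingleton.elim x y]
  · rwa [Finset.card_univ, ← Nat.card_eq_fintype_card]

theorem piece_small {V : Type} [Finite V] (G : SimpleGraph V) {w t : ℕ} (h : Nat.card V ≤ t) :
    Piece3 w t V G := by
  classical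
  have := Fintype.ofFinite V
  refine Or.inr ⟨Finset.univ, ?_, Or.inl ?_⟩
  · rwa [Finset.card_univ, ← Nat.card_eq_fintype_card]
  · refine ⟨0, fun i => i.elim0, fun v => ?_, fun u => ?_, fun i => i.elim0, fun i => i.elim0⟩
    · exact absurd (Finset.mem_univ v.1) v.2
    · exact absurd (Finset.mem_univ u.1) u.2

/-- an edge sum of graphs of `P`, if `P` contains the graphs with at most three vertices and all
3-connected minors -/
theorem sum_of {P : ∀ (V : Type), SimpleGraph V → Prop}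
    (h0 : ∀ (W : Type) [Finite W] (H : SimpleGraph W), Nat.card W ≤ 3 → P W H)
    (V : Type) [Finite V] (G : SimpleGraph V) (hG : G.Connected)
    (h : ∀ (W : Type) [Finite W] (H : SimpleGraph W), H.Connected → Conn3 H → IsMinor H G →
      P W H) : EdgeSumOf P G := by
  refine H191.edgeSumOf_mono ?_ (H191.decStmt V G hG)
  rintro W H ⟨hW, hH, hm, h3⟩
  haveI := hW
  rcases h3 with h3 | h3
  · exact h W H hH h3 hm
  · exact h0 W H h3

theorem k33_sum (V : Type) [Finite V] (G : SimpleGraph V) (hG : G.Connected)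
    (hK : ¬ IsMinor K33 G) : EdgeSumOf (ST.H626.PlanePiece 0 5) G := by
  refine H191.edgeSumOf_mono ?_ (k33_free_sum V G hG hK)
  rintro W H (h | ⟨hW, h⟩)
  · exact Or.inl h
  · haveI := hW
    exact Or.inr (piece_small H h)

theorem k33_connected : K33.Connected := by
  have : Nonempty (Fin 3 ⊕ Fin 3) := ⟨Sum.inl 0⟩
  have h1 : ∀ i j : Fin 3, K33.Adj (Sum.inl i) (Sum.inr j) := fun i j => by simp [K33]
  have key : ∀ x, K33.Reachable (Sum.inl 0) x := by
    rintro (i | j)
    · exact (h1 0 0).reachable.trans (h1 i 0).symm.reachable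
    · exact (h1 0 j).reachable
  exact ⟨fun x y => (key x).symm.trans (key y)⟩

/-- **The hand-in.** -/
theorem main : ∃ C : ℝ, 1 ≤ C ∧
    (∀ (V : Type) [Finite V] (G : SimpleGraph V), G.Connected → ¬ IsMinor K33 G →
      EdgeIso G C ∧ DistortionLE G C) ∧
    (∀ F : (V : Type) → SimpleGraph V → Prop, MinorClosed F → ¬ F (Fin 3 ⊕ Fin 3) K33 →
      ∀ (V : Type) [Finite V] (G : SimpleGraph V), G.Connected → F V G → DistortionLE G C) ∧
    (∀ (t : ℕ) (V : Type) [Finite V] (G : SimpleGraph V), G.Connected →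
      (∃ S : Set V, S.ncard ≤ t ∧ ∀ u ∉ S, ¬ IsMinor K33 (G.induce (compSet G S u))) →
        DistortionLE G (C * Real.log (t + 2))) ∧
    (∀ (w t : ℕ) (V : Type) [Finite V] (G : SimpleGraph V), G.Connected →
      (∀ (W : Type) [Finite W] (H : SimpleGraph W), H.Connected → Conn3 H → IsMinor H G →
        ST.H626.PlanePiece w t W H) →
        EdgeIso G (C * (w + Real.log (t + 2))) ∧ DistortionLE G (C * (w + Real.log (t + 2)))) ∧
    (∀ k w t : ℕ, ∃ K : ℝ, ∀ (V : Type) [Finite V] (G : SimpleGraph V), G.Connected →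
      (∀ (W : Type) [Finite W] (H : SimpleGraph W), H.Connected → Conn3 H → IsMinor H G →
        ST.H945.PlaneTw k w t W H) → EdgeIso G K ∧ DistortionLE G K) := by
  obtain ⟨C0, hC0, -, -, h3, h4, -⟩ := ST.H945.all6
  obtain ⟨A, hA, hA'⟩ := apex_log'
  have hlog2 : (1 : ℝ) / 2 ≤ Real.log 2 := by
    have := Real.log_two_gt_d9
    linarith
  have hlog7 : 0 ≤ Real.log ((5 : ℕ) + 2 : ℝ) := Real.log_nonneg (by norm_num)
  set K : ℝ := C0 * ((0 : ℕ) + Real.log ((5 : ℕ) + 2)) with hKdef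
  have hK0 : 0 ≤ K := mul_nonneg (by linarith) (by simpa using hlog7)
  have hbase : ∀ (V : Type) [Finite V] (G : SimpleGraph V), G.Connected → ¬ IsMinor K33 G →
      EdgeIso G K ∧ DistortionLE G K := fun V _ G hG hK => h3 0 5 V G hG (k33_sum V G hG hK)
  set C : ℝ := max (max C0 K) (A * (2 * K + 1)) with hC
  have hC1 : C0 ≤ C := (le_max_left _ _).trans (le_max_left _ _)
  have hC2 : K ≤ C := (le_max_right _ _).trans (le_max_left _ _)
  have hC3 : A * (2 * K + 1) ≤ C := le_max_right _ _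
  refine ⟨C, hC0.trans hC1, ?_, ?_, ?_, ?_, ?_⟩
  · intro V _ G hG hK
    have h := hbase V G hG hK
    exact ⟨ST.H626.EdgeIso.mono' h.1 hC2, h.2.mono hC2⟩
  · intro F hF hFK V _ G hG hFG
    have hK : ¬ IsMinor K33 G := fun hm =>
      hFK (minor F hF V (Fin 3 ⊕ Fin 3) G K33 hG k33_connected hm hFG)
    exact (hbase V G hG hK).2.mono hC2
  · rintro t V _ G hG ⟨S, hS, hcomp⟩
    have h := hA' K hK0 t V G hG S hS fun u hu =>
      (hbase _ _ (comp_connected hu) (hcomp u hu)).2
    refine h.mono ?_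
    have hlt : Real.log 2 ≤ Real.log ((t : ℝ) + 2) :=
      Real.log_le_log (by norm_num) (by have : (0 : ℝ) ≤ t := Nat.cast_nonneg t; linarith)
    have h5 : K + Real.log ((t : ℝ) + 2) ≤ (2 * K + 1) * Real.log ((t : ℝ) + 2) := by nlinarith
    calc A * (K + Real.log ((t : ℝ) + 2)) ≤ A * ((2 * K + 1) * Real.log ((t : ℝ) + 2)) :=
          mul_le_mul_of_nonneg_left h5 (by linarith)
      _ = A * (2 * K + 1) * Real.log ((t : ℝ) + 2) := by ring
      _ ≤ C * Real.log ((t : ℝ) + 2) := mul_le_mul_of_nonneg_right hC3 (by linarith)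
  · intro w t V _ G hG h
    have hE : EdgeSumOf (ST.H626.PlanePiece w t) G := sum_of
      (fun W _ H hW => Or.inr (Or.inl (tw_small H (by omega)))) V G hG h
    have h' := h3 w t V G hG hE
    have hlt : (0 : ℝ) ≤ Real.log ((t : ℝ) + 2) :=
      Real.log_nonneg (by have : (0 : ℝ) ≤ t := Nat.cast_nonneg t; linarith)
    have hw : (0 : ℝ) ≤ w := Nat.cast_nonneg w
    have h6 : C0 * (w + Real.log ((t : ℝ) + 2)) ≤ C * (w + Real.log ((t : ℝ) + 2)) :=
      mul_le_mul_of_nonneg_right hC1 (by linarith)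
    exact ⟨ST.H626.EdgeIso.mono' h'.1 h6, h'.2.mono h6⟩
  · intro k w t
    obtain ⟨K', hK'⟩ := h4 k w t
    refine ⟨K', fun V _ G hG h => hK' V G hG ?_⟩
    exact sum_of (fun W _ H hW => Or.inr (Or.inr (Or.inl (tw_small H (by omega))))) V G hG h

end Vale.Agent.P235.H56
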