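import Vale.Agent.P235.H56.Bound3

/-! `c₁` of the graphs without a good excluded minor, for any class of good excluded minors
(helper56). -/

set_option linter.all false

namespace Vale.Agent.P235.H56

open SimpleGraph hiding Free
open Vale.Agent.P235.H134 Vale.Agent.P235.H141 Vale.Agent.P235.H606 Vale.Agent.P235.H12

/-- the hand-in, for a class `P` of good excluded minors -/
theorem main_of (hS : H830.SPrimeStmt) (hM : H830.MonoQStmt)
    {P : ∀ W : Type, SimpleGraph W → Prop}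
    (hP : ∀ (W : Type) [Finite W] (H : SimpleGraph W), P W H → ∃ K : ℝ, Free H K) :
    ∃ C : ℝ, 1 ≤ C ∧
    (∀ (V : Type) [Finite V] (G : SimpleGraph V), G.Connected → ¬ IsMinor K33 G →
      EdgeIso G C ∧ DistortionLE G C) ∧
    (∀ (t : ℕ) (V : Type) [Finite V] (G : SimpleGraph V), G.Connected →
      (∃ S : Set V, S.ncard ≤ t ∧ ∀ u ∉ S, ¬ IsMinor K33 (G.induce (compSet G S u))) →
        DistortionLE G (C * Real.log (t + 2))) ∧
    (∀ (w t : ℕ) (V : Type) [Finite V] (G : SimpleGraph V), G.Connected →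
      (∀ (W : Type) [Finite W] (H : SimpleGraph W), H.Connected → Conn3 H → IsMinor H G →
        ST.H626.PlanePiece w t W H) →
        EdgeIso G (C * (w + Real.log (t + 2))) ∧ DistortionLE G (C * (w + Real.log (t + 2)))) ∧
    (∀ k w t : ℕ, ∃ K : ℝ, ∀ (V : Type) [Finite V] (G : SimpleGraph V), G.Connected →
      (∀ (W : Type) [Finite W] (H : SimpleGraph W), H.Connected → Conn3 H → IsMinor H G →
        ST.H945.PlaneTw k w t W H) → EdgeIso G K ∧ DistortionLE G K) ∧
    (∀ F : (V : Type) → SimpleGraph V → Prop, MinorClosed F →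
      (∃ (r : ℕ) (W : Type) (_ : Finite W) (H : SimpleGraph W), H.Connected ∧
        IsMinor H (H830.Q r) ∧ ¬ F W H) →
      ∃ K : ℝ, ∀ (V : Type) [Finite V] (G : SimpleGraph V), G.Connected → F V G →
        EdgeIso G K ∧ DistortionLE G K) ∧
    (∀ (W : Type) [Finite W] (H : SimpleGraph W),
      (∀ c : H.ConnectedComponent, P c.supp (H.induce c.supp)) →
      ∃ K : ℝ, (∀ (V : Type) [Finite V] (G : SimpleGraph V), G.Connected → ¬ IsMinor H G →
        DistortionLE G K) ∧
      ∀ (t : ℕ) (V : Type) [Finite V] (G : SimpleGraph V), G.Connected →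
        (∃ S : Set V, S.ncard ≤ t ∧ ∀ u ∉ S, ¬ IsMinor H (G.induce (compSet G S u))) →
          DistortionLE G (C * (K + Real.log (t + 2)))) ∧
    (∀ F : (V : Type) → SimpleGraph V → Prop, MinorClosed F →
      ((∃ (W : Type) (_ : Finite W) (H : SimpleGraph W), H.Connected ∧ P W H ∧ ¬ F W H) ∨
      (∃ (W : Type) (_ : Finite W) (H : SimpleGraph W),
        (∀ c : H.ConnectedComponent, P c.supp (H.induce c.supp)) ∧
        ∀ (V : Type) [Finite V] (G : SimpleGraph V), F V G → ¬ IsMinor H G)) →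
      ∃ K : ℝ, ∀ (V : Type) [Finite V] (G : SimpleGraph V), G.Connected → F V G →
        DistortionLE G K) := by
  obtain ⟨C0, hC0, h1, h2, h3, h4, -⟩ := main3
  obtain ⟨A, hA1, hA'⟩ := apex_log'
  have hlog : ∀ t : ℕ, (0 : ℝ) ≤ Real.log ((t : ℝ) + 2) := fun t =>
    Real.log_nonneg (by have : (0 : ℝ) ≤ t := Nat.cast_nonneg t; linarith)
  have hcomps : ∀ (W : Type) [Finite W] (H : SimpleGraph W),
      (∀ c : H.ConnectedComponent, P c.supp (H.induce c.supp)) →
      ∃ K : ℝ, 0 ≤ K ∧ Free H K := by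
    intro W _ H hH
    obtain ⟨K, hK⟩ := iter' W H fun c => hP _ _ (hH c)
    exact ⟨max K 0, le_max_right _ _, free_mono (le_max_left _ _) hK⟩
  refine ⟨max C0 A, hC0.trans (le_max_left _ _), ?_, ?_, ?_, h4, ?_, ?_, ?_⟩
  · intro V _ G hG hK
    have h := h1 V G hG hK
    exact ⟨ST.H626.EdgeIso.mono' h.1 (le_max_left _ _), h.2.mono (le_max_left _ _)⟩
  · intro t V _ G hG hS
    refine (h2 t V G hG hS).mono ?_
    exact mul_le_mul_of_nonneg_right (le_max_left _ _) (hlog t)
  · intro w t V _ G hG h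
    have h' := h3 w t V G hG h
    have hw : (0 : ℝ) ≤ w := Nat.cast_nonneg w
    have h6 : C0 * (w + Real.log ((t : ℝ) + 2)) ≤ max C0 A * (w + Real.log ((t : ℝ) + 2)) :=
      mul_le_mul_of_nonneg_right (le_max_left _ _) (by have := hlog t; linarith)
    exact ⟨ST.H626.EdgeIso.mono' h'.1 h6, h'.2.mono h6⟩
  · rintro F hF ⟨r, W, hW, H, hH, hm, hFH⟩
    obtain ⟨K, -, hK⟩ := q_free hS hM r
    refine ⟨K, fun V _ G hG hFG => hK V G hG fun h => hFH ?_⟩
    exact minor F hF V W G H hG hH (minor_trans hm h) hFG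
  · intro W _ H hH
    obtain ⟨K, hK0, hK⟩ := hcomps W H hH
    refine ⟨K, hK, fun t V _ G hG hS => ?_⟩
    refine (apex_of hA1 hK0 (P := fun V G => ¬ IsMinor H G) hA' hK t V G hG hS).mono ?_
    exact mul_le_mul_of_nonneg_right (le_max_right _ _) (by have := hlog t; linarith)
  · rintro F hF (⟨W, hW, H, hH, hp, hFH⟩ | ⟨W, hW, H, hH, hno⟩)
    · obtain ⟨K, hK⟩ := hP W H hp
      refine ⟨K, fun V _ G hG hFG => hK V G hG fun h => hFH ?_⟩
      exact minor F hF V W G H hG hH h hFG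
    · obtain ⟨K, -, hK⟩ := hcomps W H hH
      exact ⟨K, fun V _ G hG hFG => hK V G hG (hno V G hFG)⟩

end Vale.Agent.P235.H56
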