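import Vale.Agent.P235.H56.FaceCyc

/-! `CoreStmt` from its pieces (helper56). -/

set_option linter.all false

namespace Vale.Agent.P235.H56

open SimpleGraph Vale.Agent.P235.H134
open Vale.Agent.P235.H341W (capG)

theorem core_of (hArc : ArcStmt) (hCross : CrossStmt) (hEmb : EmbStmt) (hDecap : DecapStmt) :
    CoreStmt := by
  intro V _ G A B h2 h3 hτ hA hB hK
  have hc := h2.connected h3
  have hA' : A.Nonempty := by
    rw [← Set.ncard_pos (Set.toFinite _)]
    omega
  have hne : (A ∪ B).Nonempty := hA'.mono Set.subset_union_left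
  have hd : Nonempty G.Dart := by
    obtain ⟨x, y, hxy⟩ := (Finite.one_lt_card_iff_nontrivial.1 (by omega : 1 < Nat.card V)).exists_pair_ne
    obtain ⟨w⟩ := hc.preconnected x y
    cases w with
    | nil => exact absurd rfl hxy
    | cons h _ => exact ⟨⟨(_, _), h⟩⟩
  obtain ⟨σ, d, hσ, hT⟩ := hDecap V G (A ∪ B) hc hne hd hτ
  obtain ⟨δ, L, hF, hr⟩ := exists_fcyc h2 hc hσ d
  rcases hArc V (fun i => (δ i).fst) L A B hF.pos (fun i => by rw [hF.per]) hF.inj
    (fun a ha => hr a (hT (Or.inl ha))) (fun b hb => hr b (hT (Or.inr hb))) hA hB with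
    ⟨i, j, k, l, h1, h4, h5, h6, h7, h8, h9, h10⟩ | h | ⟨s, n, hn0, hnL, hs, hsn, hAr, hBr⟩
  · exact absurd (hCross V G A B (fun i => (δ i).fst) L (fun i => by rw [hF.per]) hF.inj
      (hF.adj hσ) i j k l h1 h4 h5 h6 h7 h8 h9 h10) hK
  · exact Or.inr h
  · left
    refine hEmb V G σ (fun i => δ (i + s)) L n A B hσ (hF.shift s) hn0 hnL ?_ ?_ ?_ ?_
    · rwa [Nat.zero_add]
    · rwa [Nat.add_comm]
    · intro a ha
      obtain ⟨i, hi, h⟩ := hAr a ha
      exact ⟨i, hi, by rwa [Nat.add_comm]⟩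
    · intro b hb
      obtain ⟨i, hi, hi', h⟩ := hBr b hb
      exact ⟨i, hi, hi', by rwa [Nat.add_comm]⟩

end Vale.Agent.P235.H56
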