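import Vale.Agent.P235.H56.Defs

/-! Pieces of `CoreStmt` (helper56). -/

namespace Vale.Agent.P235.H56

open SimpleGraph Vale.Agent.P235.H134
open Vale.Agent.P235.H341W (capG)

/-- the darts of a face, listed periodically; the vertices are different up to the period -/
structure FCyc {V : Type} (G : SimpleGraph V) (σ : Equiv.Perm G.Dart) (δ : ℕ → G.Dart) (L : ℕ) :
    Prop where
  pos : 0 < L
  next : ∀ i, faceNext σ (δ i) = δ (i + 1)
  per : ∀ i, δ (i + L) = δ i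
  inj : ∀ i j, (δ i).fst = (δ j).fst → i % L = j % L

/-- (Arc) two sets of positions on a cycle: crossing, equal with three elements, or on two arcs. -/
def ArcStmt : Prop :=
  ∀ (V : Type) [Finite V] (y : ℕ → V) (L : ℕ) (A B : Set V), 0 < L → (∀ i, y (i + L) = y i) →
    (∀ i j, y i = y j → i % L = j % L) → (∀ a ∈ A, ∃ i, y i = a) → (∀ b ∈ B, ∃ i, y i = b) →
    2 ≤ A.ncard → 2 ≤ B.ncard →
    (∃ i j k l, i < j ∧ j < k ∧ k < l ∧ l < i + L ∧ y i ∈ A ∧ y j ∈ B ∧ y k ∈ A ∧ y l ∈ B) ∨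
    (A = B ∧ A.ncard = 3) ∨
    ∃ s n, 0 < n ∧ n < L ∧ y s ∈ A ∧ y (s + n) ∈ A ∧ (∀ a ∈ A, ∃ i ≤ n, y (s + i) = a) ∧
      ∀ b ∈ B, ∃ i, n ≤ i ∧ i ≤ L ∧ y (s + i) = b

/-- (Cross) crossing neighbours give a `K_{3,3}` minor: `{a}, (arc j k), (arc l (i + L))` against
`{b}, (arc i j), (arc k l)`. -/
def CrossStmt : Prop :=
  ∀ (V : Type) (G : SimpleGraph V) (A B : Set V) (y : ℕ → V) (L : ℕ), (∀ i, y (i + L) = y i) →
    (∀ i j, y i = y j → i % L = j % L) → (∀ i, G.Adj (y i) (y (i + 1))) →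
    ∀ i j k l, i < j → j < k → k < l → l < i + L → y i ∈ A → y j ∈ B → y k ∈ A → y l ∈ B →
      IsMinor K33 (capG (capG G A) (insert none (some '' B)))

/-- (Emb) insert `a` (joined to `A`) and `b` (joined to `B` and `a`) in the face. -/
def EmbStmt : Prop :=
  ∀ (V : Type) [Finite V] (G : SimpleGraph V) (σ : Equiv.Perm G.Dart) (δ : ℕ → G.Dart)
    (L n : ℕ) (A B : Set V), PlaneMap G σ → FCyc G σ δ L → 0 < n → n < L →
    (δ 0).fst ∈ A → (δ n).fst ∈ A → (∀ a ∈ A, ∃ i ≤ n, (δ i).fst = a) →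
    (∀ b ∈ B, ∃ i, n ≤ i ∧ i ≤ L ∧ (δ i).fst = b) →
    ∃ σ' : Equiv.Perm (capG (capG G A) (insert none (some '' B))).Dart,
      PlaneMap (capG (capG G A) (insert none (some '' B))) σ'

/-- (Decap) removing the vertex `none` puts its neighbours on one face. -/
def DecapStmt : Prop :=
  ∀ (V : Type) [Finite V] (G : SimpleGraph V) (T : Set V), G.Connected → T.Nonempty →
    Nonempty G.Dart → (∃ τ : Equiv.Perm (capG G T).Dart, PlaneMap (capG G T) τ) →
    ∃ (σ : Equiv.Perm G.Dart) (d : G.Dart), PlaneMap G σ ∧ T ⊆ onFace σ d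

end Vale.Agent.P235.H56
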