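import Vale.Agent.P235.H56.Defs
import Vale.Agent.P235.H105.Sum

/-! Graphs without a `K_{3,3}` minor: the decomposition (helper56). -/

namespace Vale.Agent.P235.H56

open SimpleGraph Vale.Agent.P235.H134

/-- (Dec) every connected graph is an edge sum of connected minors which are 3-connected or have at
most three vertices. -/
def DecStmt : Prop :=
  ∀ (V : Type) [Finite V] (G : SimpleGraph V), G.Connected →
    EdgeSumOf (fun W H => Finite W ∧ H.Connected ∧ IsMinor H G ∧ (Conn3 H ∨ Nat.card W ≤ 3)) G

end Vale.Agent.P235.H56
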