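import Vale.Agent.P235.H56.Defs2
import Vale.Agent.P235.H536.FaceCross
import Vale.Agent.P235.H105.PlaneCycle

/-! The boundary of a face of a 2-connected plane graph is a cycle (helper56). -/

set_option linter.all false

namespace Vale.Agent.P235.H56

open SimpleGraph Vale.Agent.P235.H134

variable {V : Type} {G : SimpleGraph V} {σ : Equiv.Perm G.Dart} {δ : ℕ → G.Dart} {L : ℕ}

theorem FCyc.shift (h : FCyc G σ δ L) (k : ℕ) : FCyc G σ (fun i => δ (i + k)) L where
  pos := h.pos
  next := fun i => by
    rw [h.next]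
    congr 1
    omega
  per := fun i => by
    rw [show i + L + k = i + k + L by omega, h.per]
  inj := fun i j hij => Nat.ModEq.add_right_cancel' k (h.inj _ _ hij)

theorem FCyc.per' (h : FCyc G σ δ L) (i : ℕ) : δ (i % L) = δ i := by
  have h1 : ∀ m i, δ (i + L * m) = δ i := by
    intro m
    induction m with
    | zero => intro i; rfl
    | succ m ih =>
      intro i
      rw [Nat.mul_succ, ← Nat.add_assoc, h.per, ih]
  conv_rhs => rw [← Nat.mod_add_div i L]
  rw [h1]

theorem FCyc.adj (h : FCyc G σ δ L) (hσ : PlaneMap G σ) (i : ℕ) :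
    G.Adj (δ i).fst (δ (i + 1)).fst := by
  have h1 := H536.faceNext_fst hσ (δ i)
  rw [h.next] at h1
  rw [h1]
  exact (δ i).adj

/-- walks outside a vertex in a 2-connected graph -/
theorem Conn2.walk (h : Conn2 G) {v x y : V} (hx : x ≠ v) (hy : y ≠ v) :
    ∃ w : G.Walk x y, v ∉ w.support := by
  have h1 := h v {z | ∃ w : G.Walk x z, v ∉ w.support}
    ⟨x, Walk.nil, fun h => hx (by
      rw [Walk.support_nil, List.mem_singleton] at h
      exact h.symm)⟩
    (fun ⟨w, hw⟩ => hw w.end_mem_support) ?_ y
  · rcases h1 with h1 | h1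
    · exact h1
    · exact absurd h1 hy
  · rintro u ⟨w, hw⟩ u' huu
    by_cases hu' : u' = v
    · exact Or.inr hu'
    · refine Or.inl ⟨w.concat huu, ?_⟩
      rw [Walk.support_concat]
      intro h2
      rw [List.mem_append, List.mem_singleton] at h2
      rcases h2 with h2 | h2
      · exact hw h2
      · exact hu' h2.symm

theorem Conn2.connected (h : Conn2 G) (h3 : 3 ≤ Nat.card V) [Finite V] : G.Connected := by
  have hne : Nonempty V := by
    by_contra hc
    rw [not_nonempty_iff] at hc
    rw [Nat.card_of_isEmpty] at h3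
    omega
  refine ⟨fun x y => ?_⟩
  have : ∃ v, v ≠ x ∧ v ≠ y := by
    by_contra hno
    push Not at hno
    have h1 : (Set.univ : Set V) ⊆ {x, y} := by
      intro z _
      by_cases hz : z = x
      · exact Or.inl hz
      · exact Or.inr (hno z hz)
    have h2 := Set.ncard_le_ncard h1 (Set.toFinite _)
    rw [Set.ncard_univ] at h2
    have h4 : ({x, y} : Set V).ncard ≤ 2 := Set.ncard_insert_le x {y} |>.trans (by simp)
    omega
  obtain ⟨v, hx, hy⟩ := this
  obtain ⟨w, _⟩ := h.walk hx.symm hy.symm
  exact ⟨w⟩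

/-- the vertices of a face of a 2-connected plane graph form a cycle -/
theorem exists_fcyc [Finite V] (h2 : Conn2 G) (hc : G.Connected) (hσ : PlaneMap G σ)
    (d : G.Dart) : ∃ δ L, FCyc G σ δ L ∧ ∀ v ∈ onFace σ d, ∃ i, (δ i).fst = v := by
  classical
  have hfin : Finite G.Dart := Finite.of_injective (fun d : G.Dart => d.toProd)
    (fun _ _ h => SimpleGraph.Dart.toProd_injective h)
  set φ := faceNext σ with hφ
  have hper : d ∈ Function.periodicPts φ := φ.injective.mem_periodicPts d
  have hpos := Function.minimalPeriod_pos_of_mem_periodicPts hper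
  set L := Function.minimalPeriod φ d with hL
  have hP : Function.IsPeriodicPt φ L d := Function.isPeriodicPt_minimalPeriod _ _
  have hinj := Function.iterate_injOn_Iio_minimalPeriod (f := φ) (x := d)
  set δ : ℕ → G.Dart := fun i => φ^[i] d with hδ
  have hstep : ∀ i, δ (i + 1) = φ (δ i) := fun i => Function.iterate_succ_apply' _ _ _
  have hperi : ∀ i, δ (i + L) = δ i := fun i => by
    show φ^[i + L] d = φ^[i] d
    rw [Function.iterate_add_apply, hP]
  have hmod : ∀ i, δ (i % L) = δ i := fun i => hP.iterate_mod_apply i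
  have hδi : ∀ i j, δ i = δ j → i % L = j % L := fun i j hij => by
    refine hinj (Nat.mod_lt _ hpos) (Nat.mod_lt _ hpos) ?_
    show δ (i % L) = δ (j % L)
    rw [hmod, hmod, hij]
  have hsnd : ∀ i, (δ i).snd = (δ (i + 1)).fst := fun i => by
    rw [hstep, hφ, H536.faceNext_fst hσ]
  have hadj : ∀ i, G.Adj (δ i).fst (δ (i + 1)).fst := fun i => by
    rw [← hsnd]
    exact (δ i).adj
  have hcyc : ∀ (_ : Fintype G.Dart) (_ : DecidableEq V) (z : G.Dart → ZMod 2),
      (∀ d, z d.symm = z d) →
      (∀ v, ∑ d : G.Dart, (if d.fst = v then z d else 0) = 0) →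
      ∃ u : G.Dart → ZMod 2, (∀ d, u (faceNext σ d) = u d) ∧ ∀ d, z d = u d + u d.symm := by
    intro _ _ z hz hv
    have := Fintype.ofFinite V
    refine plane_cycle' hc hσ z hz fun v => ?_
    rw [Finset.sum_filter]
    exact hv v
  have main : ∀ i j, i < j → j < i + L → (δ i).fst ≠ (δ j).fst := by
    intro i j hij hjL hv
    have h1 : (δ (i + 1)).fst ≠ (δ i).fst := (hadj i).ne'
    have h3 : (δ (j + 1)).fst ≠ (δ i).fst := by
      rw [hv]
      exact (hadj j).ne'
    have hj1 : i + 1 < j := by
      rcases Nat.lt_or_ge (i + 1) j with h | h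
      · exact h
      · exfalso
        have : j = i + 1 := by omega
        rw [this] at hv
        exact h1 hv.symm
    have hj2 : j + 1 < i + L := by
      rcases Nat.lt_or_ge (j + 1) (i + L) with h | h
      · exact h
      · exfalso
        have : j + 1 = i + L := by omega
        rw [this, hperi] at h3
        exact h3 rfl
    obtain ⟨w, hw⟩ := h2.walk (v := (δ i).fst) h1 h3
    obtain ⟨z, hz1, hz2⟩ := H536.crossless_of_cycle hσ hcyc (D := δ) (fun i => hstep i)
      (a := i) (b := i + 1) (c := j) (d := j + 1) (by omega) hj1 (fun k hk1 hk2 => by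
        refine ⟨fun h => ?_, fun h => ?_⟩
        · have := hδi _ _ h
          have h5 : k ≡ i + 1 [MOD L] := this
          rcases Nat.lt_or_ge k (i + 1) with hlt | hge
          · have h6 := (Nat.modEq_iff_dvd' hlt.le).1 h5
            have h7 := Nat.le_of_dvd (by omega) h6
            omega
          · have h6 := (Nat.modEq_iff_dvd' hge).1 h5.symm
            by_contra hne
            have h7 := Nat.le_of_dvd (by omega) h6
            omega
        · have h5 : k ≡ j + 1 [MOD L] := hδi _ _ h
          have h6 := (Nat.modEq_iff_dvd' (by omega)).1 h5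
          have h7 := Nat.le_of_dvd (by omega) h6
          omega)
      ⟨j - i, by
        have h5 : j + 1 = (j - i) + (i + 1) := by omega
        rw [h5]
        show φ^[(j - i) + (i + 1)] d = _
        rw [Function.iterate_add_apply, Equiv.Perm.iterate_eq_pow]⟩
      ((Walk.nil : G.Walk (δ i).fst (δ i).fst).copy rfl hv) w
    rw [Walk.support_copy, Walk.support_nil, List.mem_singleton] at hz1
    rw [hz1] at hz2
    exact hw hz2
  refine ⟨δ, L, ⟨hpos, fun i => (hstep i).symm, hperi, ?_⟩, ?_⟩
  · intro i j hij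
    by_contra hne
    have hi : (δ (i % L)).fst = (δ (j % L)).fst := by rw [hmod, hmod, hij]
    rcases Nat.lt_or_ge (i % L) (j % L) with h | h
    · exact main _ _ h (lt_of_lt_of_le (Nat.mod_lt _ hpos) (Nat.le_add_left _ _)) hi
    · exact main _ _ (lt_of_le_of_ne h (Ne.symm hne))
        (lt_of_lt_of_le (Nat.mod_lt _ hpos) (Nat.le_add_left _ _)) hi.symm
  · rintro v ⟨e, he, rfl⟩
    obtain ⟨n, hn⟩ := he.exists_nat_pow_eq
    refine ⟨n, ?_⟩
    show (φ^[n] d).fst = e.fst
    rw [Equiv.Perm.iterate_eq_pow, hn]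

end Vale.Agent.P235.H56
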