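import Vale.Agent.P235.H56.Tree
import Vale.Agent.P235.H56.CovR
import Vale.Agent.P235.H638.MonoQ

/-! Excluded minors glued from rooted minors of the graphs `Q r` (helper56). -/

set_option autoImplicit false

namespace Vale.Agent.P235.H56

open SimpleGraph hiding Free
open Vale.Agent.P235 Vale.Agent.P235.H134 Vale.Agent.P235.H606
open Vale.Agent.P235.H750 (RMinor RFree RK33Stmt RGridStmt)

/-- the connected graphs built from a planar graph or a minor of some `Q r` by gluing, again and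
again, at any vertex, a connected rooted graph which is planar, or `K_{3,3}`, or a rooted minor of
some `(Q r, q r)` -/
inductive QTree (q : ∀ r : ℕ, (Fin 3 ⊕ Fin 2) ⊕ (Fin r × Fin r)) :
    ∀ {W : Type}, SimpleGraph W → Prop
  | core {W : Type} {H : SimpleGraph W} : Finite W → H.Connected →
      (Planar H ∨ ∃ r, IsMinor H (H830.Q r)) → QTree q H
  | glue {W : Type} {H : SimpleGraph W} {S T : Set W} {v : W} (hT : v ∈ T) : S ∪ T = Set.univ →
      S ∩ T = {v} → (∀ a b, a ∉ T → b ∉ S → ¬ H.Adj a b) → QTree q (H.induce S) →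
      QBlock q T (H.induce T) ⟨v, hT⟩ → QTree q H

/-- a minor of a graph which is built in both ways, with the roots `a` and with the roots `x` -/
def TreePiece {W : Type} (H : SimpleGraph W) : Prop :=
  ∃ (X : Type) (T : SimpleGraph X), QTree qa T ∧ QTree qx T ∧ IsMinor H T

theorem qblock_rf2 (h33 : RK33Stmt) (hGrid : RGridStmt) (hP : PlanarStmt)
    {U : Type} {F : SimpleGraph U} {f : U}
    {q : ∀ r : ℕ, (Fin 3 ⊕ Fin 2) ⊕ (Fin r × Fin r)}
    (hq : ∀ r, RF2 F f (H830.Q r) (q r)) {W : Type} {H : SimpleGraph W} {h : W}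
    (hB : QBlock q W H h) : RF2 F f H h := by
  obtain ⟨hW, hc, hpl | ⟨⟨e⟩⟩ | ⟨r, hr, hm⟩⟩ := hB
  · refine rf2_of ?_
    obtain ⟨r, -, μ, m1, m2, m3⟩ := hP W H hpl
    obtain ⟨x, hx⟩ := (m1 h).nonempty
    exact H427.rfree_mono ⟨μ, m1, m2, m3, hx⟩ (hGrid r x)
  · exact rf2_of (H427.rfree_mono (H427.rminor_iso e h) (h33 (e h)))
  · exact rf2_mono hm (hq r)

theorem q_conn (r : ℕ) : (H830.Q r).Connected := by
  have : Nonempty ((Fin 3 ⊕ Fin 2) ⊕ (Fin r × Fin r)) := ⟨Sum.inl (Sum.inl 0)⟩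
  have h0 : ∀ i : Fin 3, (H830.Q r).Reachable (Sum.inl (Sum.inl i)) (Sum.inl (Sum.inl 2)) := by
    intro i
    by_cases hi : i = 2
    · subst hi
      exact Reachable.refl _
    · exact (H638.Q_tri r hi).reachable
  have key : ∀ p, (H830.Q r).Reachable p (Sum.inl (Sum.inl 2)) := by
    rintro ((i | j) | x)
    · exact h0 i
    · exact (H638.Q_two r 0 j).symm.reachable.trans (h0 0)
    · -- along the row to the first column
      have : ∀ (n : ℕ) (x : Fin r × Fin r), x.2.val = n →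
          (H830.Q r).Reachable (Sum.inr x) (Sum.inl (Sum.inl 2)) := by
        intro n
        induction n with
        | zero =>
          intro x hx
          have hs : x ∈ H830.side r 1 := Or.inr (Or.inl ⟨rfl, hx⟩)
          exact (H638.Q_side hs).symm.reachable.trans (h0 1)
        | succ n ih =>
          intro x hx
          have hlt : n < r := by have := x.2.isLt; omega
          have h1 : (H830.Q r).Adj (Sum.inr x) (Sum.inr (x.1, ⟨n, hlt⟩)) :=
            H638.Q_grid (H638.grid_adj.2 (Or.inr ⟨Or.inr hx.symm, rfl⟩))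
          exact h1.reachable.trans (ih (x.1, ⟨n, hlt⟩) rfl)
      exact this _ x rfl
  exact ⟨fun u v => (key u).trans (key v).symm⟩

theorem qtree_rf2 (hOne : One2Stmt) (h33 : RK33Stmt) (hGrid : RGridStmt) (hP : PlanarStmt)
    {q : ∀ r : ℕ, (Fin 3 ⊕ Fin 2) ⊕ (Fin r × Fin r)} {W : Type} {H : SimpleGraph W}
    (hH : QTree q H) : Finite W ∧ H.Connected ∧ ∃ h : W, ∀ (U : Type) [Finite U]
      (F : SimpleGraph U) (f : U), (∀ r, RF2 F f (H830.Q r) (q r)) → RF2 F f H h := by
  induction hH with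
  | @core W H hW hc hcore =>
    refine ⟨hW, hc, ?_⟩
    rcases hcore with hpl | ⟨r, hr⟩
    · obtain ⟨h⟩ := hc.nonempty
      refine ⟨h, fun U _ F f _ => rf2_of ?_⟩
      obtain ⟨r, -, μ, m1, m2, m3⟩ := hP W H hpl
      obtain ⟨x, hx⟩ := (m1 h).nonempty
      exact H427.rfree_mono ⟨μ, m1, m2, m3, hx⟩ (hGrid r x)
    · have := hc.nonempty
      obtain ⟨h, hh⟩ := exists_root (q_conn r) hr (q r)
      exact ⟨h, fun U _ F f hq => rf2_mono hh (hq r)⟩
  | @glue W H S T v hvT hST hST' hadj _ hT ihS =>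
    obtain ⟨hSf, hSc, h, hSr⟩ := ihS
    have hvS : v ∈ S := (hST'.symm ▸ Set.mem_singleton v : v ∈ S ∩ T).1
    have hTf : Finite T := hT.1
    have hTc : (H.induce T).Connected := hT.2.1
    have hW : Finite W := by
      rw [← Set.finite_univ_iff, ← hST]
      exact (Set.toFinite S).union (Set.toFinite T)
    exact ⟨hW, H427.conn_glue hvS hvT hST hSc hTc, h.1, fun U _ F f hq =>
      hOne U W F f H S T v hvS hvT hST hST' hadj hSc hTc (qblock_rf2 h33 hGrid hP hq hT) h
        (hSr U F f hq)⟩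

theorem treePiece_free (hOne : One2Stmt) (h33 : RK33Stmt) (hGrid : RGridStmt) (hP : PlanarStmt)
    (hq : ∀ r s, RF2 (H830.Q r) (qa r) (H830.Q s) (qx s)) {W : Type} {H : SimpleGraph W}
    (hH : TreePiece H) : ∃ C : ℝ, Free H C := by
  obtain ⟨X, T, hA, hX, hm⟩ := hH
  obtain ⟨hf, -, h, h1⟩ := qtree_rf2 hOne h33 hGrid hP hA
  obtain ⟨-, -, h', h2⟩ := qtree_rf2 hOne h33 hGrid hP hX
  have h3 : RF2 T h' T h := h1 X T h' fun r => rf2_symm (h2 _ (H830.Q r) (qa r) fun s => hq r s)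
  obtain ⟨C, hC⟩ := h3 (Nat.card X)
  refine ⟨C, fun V _ G hG hno => ?_⟩
  obtain ⟨b⟩ := hG.nonempty
  have hno' : ¬ IsMinor T G := fun h => hno (minor_trans hm h)
  have hn : ∀ k, ¬ RMinor T k G b := fun k ⟨μ, m1, m2, m3, _⟩ => hno' ⟨μ, m1, m2, m3⟩
  exact hC V G b hG (H786.noK_of le_rfl hno') (hn _) (hn _)

end Vale.Agent.P235.H56
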