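import Vale.Agent.P235.H56.Bound4
import Vale.Agent.P235.H56.QTree
import Vale.Agent.P235.H427.TreeAll

/-! The families (helper56). -/

set_option linter.all false

namespace Vale.Agent.P235.H56

open SimpleGraph hiding Free
open Vale.Agent.P235 Vale.Agent.P235.H134 Vale.Agent.P235.H141 Vale.Agent.P235.H606

theorem free_tree {W : Type} {H : SimpleGraph W} (hH : TreePiece H) : ∃ K : ℝ, Free H K :=
  treePiece_free H427.one2 H638.rK33 H638.rGrid H205.planar H427.rf2Q hH

end Vale.Agent.P235.H56
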